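import Vale.Agent.P078.AllMasa.Singular.Blocks

/-! Fine cells cut by the spectral projections of their pinchings, and their random colourings. -/

namespace Vale.Agent.P078.AllMasa.Singular

open Filter Topology
open scoped InnerProductSpace
open Vale.Agent.P078 Vale.Agent.P078.InM Vale.Agent.P078.Tracial

variable {H : Type*} [NormedAddCommGroup H] [InnerProductSpace ℂ H] [CompleteSpace H]
variable {M : VonNeumannAlgebra H} {A : StarSubalgebra ℂ (H →L[ℂ] H)}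

/-- Fine cells on which the pinching is close to its limit and the cuts are nearly everything. -/
theorem exists_cut_cells (hA : MasaIn M A) (U : Fine A) {w : H →L[ℂ] H} (hw : w ∈ A)
    (hwp : IsStarProjection w) {y' : H →L[ℂ] H} {K : ℝ} (hy'n : ‖y'‖ ≤ K)
    {e : H →L[ℂ] H} (heM : e ∈ M) (he0 : 0 ≤ e) (he1 : e ≤ 1) (hwec : Commute w e)
    (F' : Finset H)
    (hesmall : ∀ η' > 0, ∀ᶠ R in (U.U : Filter (Ptn A)),
      ∑ u ∈ F', (⟪u, pinch R.c e u⟫_ℂ).re < η')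
    {κ : ℝ} (hκ : 0 < κ) (hκ1 : κ ≤ 1) :
    ∃ (R : Ptn A) (q0 q1 : H →L[ℂ] H), q0 ∈ M ∧ IsStarProjection q0 ∧ Commute w q0 ∧
      q1 ∈ M ∧ IsStarProjection q1 ∧ Commute w q1 ∧
      ∑ u ∈ F', ‖(e * q0 * (pinch R.c y' - limE U y')) u‖ ^ 2 ≤
        4 * κ * (K ^ 2 * ∑ u ∈ F', ‖u‖ ^ 2 + 1) ∧
      ∑ u ∈ F', ‖(1 - q0) u‖ ^ 2 ≤ κ * (K ^ 2 * ∑ u ∈ F', ‖u‖ ^ 2 + 1) ∧
      ∑ u ∈ F', ‖(1 - q1) u‖ ^ 2 ≤ κ * (K ^ 2 * ∑ u ∈ F', ‖u‖ ^ 2 + 1) ∧
      ∀ i z, ‖(e * q1) (R.c i z)‖ ^ 2 ≤ κ * ‖R.c i z‖ ^ 2 := by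
  classical
  set E := limE U y' with hE'
  set W := ∑ u ∈ F', ‖u‖ ^ 2 with hW'
  have hW : 0 ≤ W := Finset.sum_nonneg fun u _ => sq_nonneg _
  set L := K ^ 2 * W + 1 with hL'
  have hKW : 0 ≤ K ^ 2 * W := mul_nonneg (sq_nonneg _) hW
  have hL : 1 ≤ L := le_add_of_nonneg_left hKW
  have hwa : star w = w := hwp.isSelfAdjoint
  have hes : IsSelfAdjoint e := he0.isSelfAdjoint
  set η := κ ^ 3 with hη'
  have hη : 0 < η := pow_pos hκ 3
  obtain ⟨P0, hP0⟩ := (hesmall η hη).exists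
  obtain ⟨q0, hq0M, hq0, hG0, hq0v, hq0c, -⟩ := exists_smallProj
    (Tracial.pinch_mem hA P0.isPart heM) (pinch_selfAdjoint P0.isPart hes) hκ
  have hcell : ∀ (P : Ptn A) (q : H →L[ℂ] H),
      (∀ b, b * pinch P.c e = pinch P.c e * b → star b * pinch P.c e = pinch P.c e * star b →
        b * q = q * b) → Commute w q ∧ ∀ i, P.c i * q = q * P.c i := by
    intro P q hq
    have hwP : Commute w (pinch P.c e) :=
      commute_pinch (fun i => hA.comm _ hw _ (P.isPart.mem i)) hwec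
    refine ⟨hq w hwP.eq (by rw [hwa]; exact hwP.eq), fun i => ?_⟩
    have hi : P.c i * pinch P.c e = pinch P.c e * P.c i := by
      rw [(pinch_mul_cell P.isPart e i).1, (pinch_mul_cell P.isPart e i).2]
    exact hq _ hi (by rw [(P.isPart.proj i).isSelfAdjoint.star_eq]; exact hi)
  obtain ⟨hwq0, hcq0⟩ := hcell P0 q0 hq0c
  set T0 := e * q0 with hT0
  let g : Ptn A → PiLp 2 (fun _ : F' => H) :=
    fun R => WithLp.toLp 2 fun u => T0 (pinch R.c y' (u : H))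
  let gE : PiLp 2 (fun _ : F' => H) := WithLp.toLp 2 fun u => T0 (E (u : H))
  have hweak : ∀ d, Tendsto (fun R => ⟪d, g R⟫_ℂ) (U.U : Filter (Ptn A)) (𝓝 ⟪d, gE⟫_ℂ) := by
    intro d
    simp only [PiLp.inner_apply, g, gE]
    refine tendsto_finsetSum _ fun u _ => ?_
    simp only [← ContinuousLinearMap.adjoint_inner_left T0]
    exact tendsto_limE' U y' _ _
  set cost : Ptn A → ℝ := fun R => ∑ u ∈ F', (⟪u, pinch R.c e u⟫_ℂ).re with hcost
  obtain ⟨n, lam, Q, hl0, hl1, hQ, hav⟩ :=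
    exists_convex_approx g gE hweak ((U.refines P0).and (hesmall η hη)) hη
  let v : Fin P0.n → Fin n → PiLp 2 (fun _ : F' => H) := fun b j =>
    WithLp.toLp 2 fun u => T0 ((P0.c b * pinch (Q j).c y' * P0.c b) (u : H))
  let a : Fin P0.n → Fin n → ℝ := fun b j =>
    κ / η * ∑ u ∈ F', (⟪u, (P0.c b * pinch (Q j).c e * P0.c b) u⟫_ℂ).re
  have hblock : ∀ b (T : H →L[ℂ] H) (u : H),
      (⟪u, (P0.c b * T * P0.c b) u⟫_ℂ).re = (⟪P0.c b u, T (P0.c b u)⟫_ℂ).re := fun b T u => by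
    rw [op_mul_apply, op_mul_apply, ← sa_inner (P0.isPart.proj b).isSelfAdjoint]
  have ha0 : ∀ b j, 0 ≤ a b j := fun b j => by
    refine mul_nonneg (by positivity) (Finset.sum_nonneg fun u _ => ?_)
    rw [hblock]
    exact (Complex.nonneg_iff.1 (inner_nonneg_of_nonneg
      (pinch_nonneg' (Q j).isPart he0) _)).1
  obtain ⟨k, hk⟩ := exists_choice_cost lam hl0 hl1 Finset.univ v a
  obtain ⟨R, hR, hRp⟩ := exists_blockwise hA P0 Q k
  have hvsum : ∀ j, ∑ b, v b j = g (Q j) := fun j => by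
    ext u
    simp only [v, g, WithLp.ofLp_sum, Finset.sum_apply, ← map_sum, ← _root_.sum_apply,
      sum_blocks_refines hA (hQ j).1]
  have hvR : ∑ b, v b (k b) = g R := by
    ext u
    simp only [v, g, WithLp.ofLp_sum, Finset.sum_apply, ← map_sum, ← _root_.sum_apply, hRp y']
  have hasum : ∀ j, ∑ b, a b j = κ / η * cost (Q j) := fun j => by
    simp only [a, hcost, ← Finset.mul_sum]
    rw [Finset.sum_comm]
    simp only [← Complex.re_sum, ← inner_sum, ← _root_.sum_apply,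
      sum_blocks_refines hA (hQ j).1]
  have haR : ∑ b, a b (k b) = κ / η * cost R := by
    simp only [a, hcost, ← Finset.mul_sum]
    rw [Finset.sum_comm]
    simp only [← Complex.re_sum, ← inner_sum, ← _root_.sum_apply, hRp e]
  have hnormV : ∀ z : PiLp 2 (fun _ : F' => H), ‖z‖ ^ 2 = ∑ u, ‖z u‖ ^ 2 := fun z =>
    PiLp.norm_sq_eq_of_L2 _ z
  have hvn : ∀ j, ∑ b, ‖v b j‖ ^ 2 ≤ κ * (K ^ 2 * W) := fun j => by
    calc ∑ b, ‖v b j‖ ^ 2
        ≤ ∑ b, ∑ u : F', κ * (K ^ 2 * ‖P0.c b (u : H)‖ ^ 2) := by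
          refine Finset.sum_le_sum fun b _ => ?_
          rw [hnormV]
          refine Finset.sum_le_sum fun u _ => ?_
          show ‖T0 (P0.c b (pinch (Q j).c y' (P0.c b (u : H))))‖ ^ 2 ≤ _
          refine (norm_cut_block_sq_le P0.isPart he0 he1 hq0 hG0 b (hcq0 b) _).trans
            (mul_le_mul_of_nonneg_left ?_ hκ.le)
          rw [← mul_pow]
          exact pow_le_pow_left₀ (norm_nonneg _) ((proj_norm_apply_le (P0.isPart.proj b) _).trans
            (((pinch (Q j).c y').le_opNorm _).trans (mul_le_mul_of_nonneg_right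
              ((norm_pinch_le (Q j).isPart y').trans hy'n) (norm_nonneg _)))) 2
      _ = κ * (K ^ 2 * W) := by
          rw [Finset.sum_comm]
          simp only [← Finset.mul_sum]
          have h1 : ∀ u : F', ∑ b, ‖P0.c b (u : H)‖ ^ 2 = ‖(u : H)‖ ^ 2 := fun u => by
            rw [P0.isPart.sum_norm_sq]; rfl
          rw [Finset.sum_congr rfl fun u _ => h1 u, Finset.sum_coe_sort F' fun u => ‖u‖ ^ 2]
  have htot : ∑ b, ∑ j, lam j * (‖v b j‖ ^ 2 + a b j) ≤ κ * L := by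
    rw [Finset.sum_comm]
    calc ∑ j, ∑ b, lam j * (‖v b j‖ ^ 2 + a b j)
        ≤ ∑ j, lam j * (κ * L) := by
          refine Finset.sum_le_sum fun j _ => ?_
          rw [← Finset.mul_sum, Finset.sum_add_distrib, hasum]
          refine mul_le_mul_of_nonneg_left ?_ (hl0 j)
          have h1 : κ / η * cost (Q j) ≤ κ / η * η :=
            mul_le_mul_of_nonneg_left (hQ j).2.le (by positivity)
          rw [div_mul_cancel₀ _ hη.ne'] at h1
          linarith [hvn j]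
      _ = κ * L := by rw [← Finset.sum_mul, hl1, one_mul]
  have hk' := hk.trans htot
  rw [hvR, haR] at hk'
  simp only [hvsum] at hk'
  have hcostR0 : 0 ≤ cost R := Finset.sum_nonneg fun u _ =>
    (Complex.nonneg_iff.1 (inner_nonneg_of_nonneg
      (pinch_nonneg' R.isPart he0) _)).1
  have hcostR : cost R ≤ η * L := by
    have h1 : κ / η * cost R ≤ κ * L := le_trans (le_add_of_nonneg_left (sq_nonneg _)) hk'
    rw [div_mul_eq_mul_div, div_le_iff₀ hη, mul_assoc, mul_comm L η] at h1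
    exact le_of_mul_le_mul_left h1 hκ
  set D := pinch R.c y' - E with hD'
  have hD0 : ∑ u ∈ F', ‖(T0 * D) u‖ ^ 2 ≤ 4 * κ * L := by
    have h1 : ‖g R - gE‖ ≤ Real.sqrt (κ * L) + η := by
      refine (norm_sub_le_norm_sub_add_norm_sub _ (∑ j, lam j • g (Q j)) _).trans
        (add_le_add (Real.le_sqrt_of_sq_le ?_) hav.le)
      exact le_trans (le_add_of_nonneg_right (mul_nonneg (by positivity) hcostR0)) hk'
    have h2 : η ≤ Real.sqrt (κ * L) := Real.le_sqrt_of_sq_le (by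
      calc η ^ 2 ≤ κ ^ 1 := by
            rw [hη', ← pow_mul]; exact pow_le_pow_of_le_one hκ.le hκ1 (by norm_num)
        _ ≤ κ * L := by rw [pow_one]; exact le_mul_of_one_le_right hκ.le hL)
    have h4 : ∑ u ∈ F', ‖(T0 * D) u‖ ^ 2 = ‖g R - gE‖ ^ 2 := by
      rw [hnormV, ← Finset.sum_coe_sort F']
      refine Finset.sum_congr rfl fun u _ => ?_
      simp only [g, gE, WithLp.ofLp_sub, Pi.sub_apply, hD', op_mul_apply, _root_.sub_apply, map_sub]
    rw [h4]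
    refine (pow_le_pow_left₀ (norm_nonneg _) (h1.trans (add_le_add le_rfl h2)) 2).trans
      (le_of_eq ?_)
    rw [← two_mul, mul_pow, Real.sq_sqrt (by positivity)]
    ring
  obtain ⟨q1, hq1M, hq1, hG1, hq1v, hq1c, -⟩ := exists_smallProj
    (Tracial.pinch_mem hA R.isPart heM) (pinch_selfAdjoint R.isPart hes) hκ
  obtain ⟨hwq1, hcq1⟩ := hcell R q1 hq1c
  have hproj : ∀ {P : Ptn A} {q : H →L[ℂ] H}, (∀ v, κ * ‖v - q v‖ ≤ ‖pinch P.c e v‖) →
      ∑ u ∈ F', ‖(1 - q) u‖ ^ 2 ≤ cost P / κ ^ 2 := fun {P q} hq => by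
    rw [le_div_iff₀ (pow_pos hκ 2), Finset.sum_mul]
    refine Finset.sum_le_sum fun u _ => ?_
    rw [← mul_pow, mul_comm]
    refine (pow_le_pow_left₀ (by positivity) (hq u) 2).trans ?_
    exact norm_apply_sq_le' (pinch_nonneg' P.isPart he0) (pinch_le_one P.isPart he0 he1) u
  refine ⟨R, q0, q1, hq0M, hq0, hwq0, hq1M, hq1, hwq1, hD0, ?_, ?_, fun i z =>
    norm_cut_block_sq_le R.isPart he0 he1 hq1 hG1 i (hcq1 i) z⟩
  · refine (hproj hq0v).trans ((div_le_iff₀ (pow_pos hκ 2)).2 (hP0.le.trans ?_))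
    rw [hη', show κ ^ 3 = κ * κ ^ 2 by ring]
    exact mul_le_mul_of_nonneg_right (le_mul_of_one_le_right hκ.le hL) (sq_nonneg κ)
  · refine (hproj hq1v).trans ((div_le_iff₀ (pow_pos hκ 2)).2 (hcostR.trans (le_of_eq ?_)))
    rw [hη']; ring

/-- A colouring whose gaps are small after the cut. -/
theorem exists_cut_colouring (R : Ptn A) {r : ℕ} (hr : 0 < r) {y' T1 : H →L[ℂ] H} {K : ℝ}
    (hy'n : ‖y'‖ ≤ K) {κ : ℝ} (hκ : 0 ≤ κ)
    (hT : ∀ i z, ‖T1 (R.c i z)‖ ^ 2 ≤ κ * ‖R.c i z‖ ^ 2) (F' : Finset H) :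
    ∃ f : Fin R.n → Fin r,
      ∑ u ∈ F', ‖(T1 * ∑ p : Fin R.n × Fin R.n,
          (gap r p f : ℂ) • (R.c p.1 * y' * R.c p.2)) u‖ ^ 2 ≤
        2 * κ * (K ^ 2 * ∑ u ∈ F', ‖u‖ ^ 2) := by
  classical
  set W := ∑ u ∈ F', ‖u‖ ^ 2 with hW'
  have hnormV : ∀ z : PiLp 2 (fun _ : F' => H), ‖z‖ ^ 2 = ∑ u, ‖z u‖ ^ 2 := fun z =>
    PiLp.norm_sq_eq_of_L2 _ z
  let wv : Fin R.n × Fin R.n → PiLp 2 (fun _ : F' => H) := fun p =>
    WithLp.toLp 2 fun u => T1 ((R.c p.1 * y' * R.c p.2) (u : H))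
  obtain ⟨f, hf⟩ := second_moment_vec hr wv
  refine ⟨f, ?_⟩
  set Z1 : H →L[ℂ] H :=
    ∑ p : Fin R.n × Fin R.n, (gap r p f : ℂ) • (R.c p.1 * y' * R.c p.2) with hZ1'
  have hwvn : ∑ p, ‖wv p‖ ^ 2 ≤ κ * (K ^ 2 * W) := by
    calc ∑ p, ‖wv p‖ ^ 2
        ≤ ∑ p : Fin R.n × Fin R.n, ∑ u : F', κ * ‖R.c p.1 (y' (R.c p.2 (u : H)))‖ ^ 2 := by
          refine Finset.sum_le_sum fun p _ => ?_
          rw [hnormV]
          exact Finset.sum_le_sum fun u _ =>
            hT p.1 (y' (R.c p.2 (u : H)))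
      _ ≤ ∑ u : F', κ * (K ^ 2 * ‖(u : H)‖ ^ 2) := by
          rw [Finset.sum_comm]
          refine Finset.sum_le_sum fun u _ => ?_
          rw [← Finset.mul_sum]
          refine mul_le_mul_of_nonneg_left ?_ hκ
          rw [Fintype.sum_prod_type_right]
          calc ∑ j, ∑ i, ‖R.c i (y' (R.c j (u : H)))‖ ^ 2
              ≤ ∑ j, K ^ 2 * ‖R.c j (u : H)‖ ^ 2 := by
                refine Finset.sum_le_sum fun j _ => ?_
                rw [R.isPart.sum_norm_sq, one_apply_eq_self, ← mul_pow]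
                exact pow_le_pow_left₀ (norm_nonneg _) ((y'.le_opNorm _).trans
                  (mul_le_mul_of_nonneg_right hy'n (norm_nonneg _))) 2
            _ = _ := by rw [← Finset.mul_sum, R.isPart.sum_norm_sq]; rfl
      _ = _ := by
          simp only [← Finset.mul_sum]
          rw [Finset.sum_coe_sort F' fun u => ‖u‖ ^ 2]
  have h1 : ∑ u ∈ F', ‖(T1 * Z1) u‖ ^ 2 = ‖∑ p, (gap r p f : ℂ) • wv p‖ ^ 2 := by
    rw [hnormV, ← Finset.sum_coe_sort F']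
    refine Finset.sum_congr rfl fun u _ => ?_
    simp only [wv, hZ1', WithLp.ofLp_sum, WithLp.ofLp_smul, Finset.sum_apply, Pi.smul_apply,
      op_mul_apply, _root_.sum_apply, _root_.smul_apply, map_sum, map_smul]
  rw [h1]
  refine hf.trans ?_
  linarith

end Vale.Agent.P078.AllMasa.Singular
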