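import Vale.Agent.P078.AllMasa.Singular.Blocks

/-! The spectral projection on which all the cuts and gaps are small at once. -/

namespace Vale.Agent.P078.AllMasa.Singular

open Filter Topology
open scoped InnerProductSpace
open Vale.Agent.P078 Vale.Agent.P078.InM Vale.Agent.P078.Tracial

variable {H : Type*} [NormedAddCommGroup H] [InnerProductSpace ℂ H] [CompleteSpace H]
variable {M : VonNeumannAlgebra H}

/-- One projection in the corner of `w` on which `Z1` and `D` are small, close to `w` on the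
vectors. -/
theorem exists_final_proj {w : H →L[ℂ] H} (hwp : IsStarProjection w)
    {e q0 q1 Z1 D : H →L[ℂ] H} (heM : e ∈ M) (he0 : 0 ≤ e) (he1 : e ≤ 1) (hwec : Commute w e)
    (hq0M : q0 ∈ M) (hq0 : IsStarProjection q0) (hwq0 : Commute w q0)
    (hq1M : q1 ∈ M) (hq1 : IsStarProjection q1) (hwq1 : Commute w q1)
    (hZ1M : Z1 ∈ M) (hwZ1 : Commute w Z1) (hDM : D ∈ M) (hwD : Commute w D)
    {K : ℝ} (hZ1n : ‖Z1‖ ≤ 3 * K) (hDn : ‖D‖ ≤ 2 * K) (F' : Finset H)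
    {s δ τ : ℝ} (hs : 0 < s) (hδ : 0 < δ) (hτ : (13 * K ^ 2 + 3) * τ < (s ^ 2 * δ) ^ 2)
    (hsum : ∑ u ∈ F', ‖(e * q1 * Z1) u‖ ^ 2 + ∑ u ∈ F', ‖(e * q0 * D) u‖ ^ 2 +
      ∑ u ∈ F', (⟪u, (1 - e) u⟫_ℂ).re + ∑ u ∈ F', ‖(1 - q0) u‖ ^ 2 +
      ∑ u ∈ F', ‖(1 - q1) u‖ ^ 2 ≤ τ) :
    ∃ q : H →L[ℂ] H, q ∈ M ∧ IsStarProjection q ∧ w * q = q * w ∧
      (∀ u ∈ F', ‖u - q u‖ < δ) ∧ ‖q * Z1 * q‖ ≤ s + 3 * (s * (3 * K)) ∧
      ‖q * D * q‖ ≤ s + 3 * (s * (2 * K)) := by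
  have hwa : star w = w := hwp.isSelfAdjoint
  have hes : IsSelfAdjoint e := he0.isSelfAdjoint
  have hen : ‖e‖ ≤ 1 := (CStarAlgebra.norm_le_one_iff_of_nonneg e he0).2 he1
  set B := 13 * K ^ 2 + 3 with hB'
  have hB : 0 < B := by positivity
  set T1 := e * q1 with hT1
  set T0 := e * q0 with hT0
  set S1 := T1 * Z1 with hS1
  set S0 := T0 * D with hS0
  have hTn : ∀ q : H →L[ℂ] H, IsStarProjection q → ∀ Z : H →L[ℂ] H, ‖e * q * Z‖ ≤ ‖Z‖ :=
    fun q hq Z => (norm_mul_le _ _).trans (mul_le_of_le_one_left (norm_nonneg _)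
      ((norm_mul_le _ _).trans (mul_le_one₀ hen (norm_nonneg _) hq.norm_le)))
  set X := star S1 * S1 + star S0 * S0 + (1 - e) + (1 - q0) + (1 - q1) with hX
  have he' : 0 ≤ 1 - e := sub_nonneg.2 he1
  have hX0 : 0 ≤ X := add_nonneg (add_nonneg (add_nonneg (add_nonneg (star_mul_self_nonneg _)
    (star_mul_self_nonneg _)) he') hq0.one_sub.nonneg) hq1.one_sub.nonneg
  have hS1M : S1 ∈ M := mul_mem (mul_mem heM hq1M) hZ1M
  have hS0M : S0 ∈ M := mul_mem (mul_mem heM hq0M) hDM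
  have hXM : X ∈ M :=
    add_mem (add_mem (add_mem (add_mem (mul_mem (star_mem hS1M) hS1M)
      (mul_mem (star_mem hS0M) hS0M)) (sub_mem (one_mem M) heM)) (sub_mem (one_mem M) hq0M))
      (sub_mem (one_mem M) hq1M)
  have hwsq : ∀ {S : H →L[ℂ] H}, Commute w S → Commute w (star S * S) := fun {S} hS => by
    have h := hS.star_star
    rw [hwa] at h
    exact h.mul_right hS
  have hwX : Commute w X :=
    ((((hwsq ((hwec.mul_right hwq1).mul_right hwZ1)).add_right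
      (hwsq ((hwec.mul_right hwq0).mul_right hwD))).add_right
      ((Commute.one_right w).sub_right hwec)).add_right
      ((Commute.one_right w).sub_right hwq0)).add_right ((Commute.one_right w).sub_right hwq1)
  have hquad : ∀ v, (⟪v, X v⟫_ℂ).re = ‖S1 v‖ ^ 2 + ‖S0 v‖ ^ 2 + (⟪v, (1 - e) v⟫_ℂ).re +
      ‖(1 - q0) v‖ ^ 2 + ‖(1 - q1) v‖ ^ 2 := fun v => by
    have h1 : ∀ S : H →L[ℂ] H, (⟪v, (star S * S) v⟫_ℂ).re = ‖S v‖ ^ 2 := fun S => by
      rw [op_mul_apply, ContinuousLinearMap.star_eq_adjoint,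
        ContinuousLinearMap.adjoint_inner_right, inner_self_eq_norm_sq_to_K]
      simp [← Complex.ofReal_pow]
    have h2 : ∀ q : H →L[ℂ] H, IsStarProjection q → (⟪v, q v⟫_ℂ).re = ‖q v‖ ^ 2 := fun q hq => by
      rw [← h1 q, hq.isSelfAdjoint.star_eq, hq.isIdempotentElem.eq]
    simp only [hX, _root_.add_apply, inner_add_right, Complex.add_re, h1, h2 _ hq0.one_sub,
      h2 _ hq1.one_sub]
  have hXn : ‖X‖ ≤ B := by
    have h1 : ∀ {S : H →L[ℂ] H} {b : ℝ}, ‖S‖ ≤ b → ‖star S * S‖ ≤ b ^ 2 := fun {S b} hS => by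
      rw [CStarRing.norm_star_mul_self, ← sq]
      exact pow_le_pow_left₀ (norm_nonneg _) hS 2
    refine (norm_add_le _ _).trans ((add_le_add ((norm_add_le _ _).trans (add_le_add
      ((norm_add_le _ _).trans (add_le_add ((norm_add_le _ _).trans (add_le_add
        (h1 ((hTn q1 hq1 Z1).trans hZ1n)) (h1 ((hTn q0 hq0 D).trans hDn))))
        ((CStarAlgebra.norm_le_one_iff_of_nonneg _ he').2 (sub_le_self _ he0))))
        hq0.one_sub.norm_le)) hq1.one_sub.norm_le).trans (le_of_eq ?_))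
    rw [hB']; ring
  have hXu : ∀ u ∈ F', (⟪u, X u⟫_ℂ).re ≤ τ := by
    intro u hu
    refine (Finset.single_le_sum (f := fun u => (⟪u, X u⟫_ℂ).re) (fun u _ =>
      (Complex.nonneg_iff.1 (inner_nonneg_of_nonneg hX0 u)).1) hu).trans ?_
    simp only [hquad, Finset.sum_add_distrib]
    exact hsum
  obtain ⟨q, hqM, hq, hXq, hqv, hqc, -⟩ := exists_smallProj hXM hX0.isSelfAdjoint (pow_pos hs 2)
  refine ⟨q, hqM, hq, hqc w hwX.eq (by rw [hwa]; exact hwX.eq), fun u hu => ?_, ?_⟩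
  · have h1 := pow_le_pow_left₀ (by positivity) (hqv u) 2
    have h2 : ‖X u‖ ^ 2 ≤ B * τ :=
      (norm_apply_sq_le hX0 u).trans (mul_le_mul hXn (hXu _ hu)
        (Complex.nonneg_iff.1 (inner_nonneg_of_nonneg hX0 _)).1 hB.le)
    have h3 := ((pow_lt_pow_iff_left₀ (by positivity) (by positivity) two_ne_zero).1
      ((h1.trans h2).trans_lt hτ))
    exact lt_of_mul_lt_mul_left h3 (sq_nonneg s)
  · have hsq : Real.sqrt (s ^ 2) = s := Real.sqrt_sq hs.le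
    have hpos : ∀ v, 0 ≤ (⟪v, (1 - e) v⟫_ℂ).re := fun v =>
      (Complex.nonneg_iff.1 (inner_nonneg_of_nonneg he' v)).1
    have b1 := norm_mul_proj_le (S := S1) hq (fun v => by
      rw [hquad]; linarith [sq_nonneg ‖S0 v‖, hpos v, sq_nonneg ‖(1 - q0) v‖,
        sq_nonneg ‖(1 - q1) v‖]) hXq
    have b0 := norm_mul_proj_le (S := S0) hq (fun v => by
      rw [hquad]; linarith [sq_nonneg ‖S1 v‖, hpos v, sq_nonneg ‖(1 - q0) v‖,
        sq_nonneg ‖(1 - q1) v‖]) hXq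
    have be := norm_mul_proj_le (S := 1 - e) hq (fun v => by
      have := norm_apply_sq_le' he' (sub_le_self _ he0) v
      rw [hquad]; linarith [sq_nonneg ‖S1 v‖, sq_nonneg ‖S0 v‖, sq_nonneg ‖(1 - q0) v‖,
        sq_nonneg ‖(1 - q1) v‖]) hXq
    have bq0 := norm_mul_proj_le (S := 1 - q0) hq (fun v => by
      rw [hquad]; linarith [sq_nonneg ‖S1 v‖, sq_nonneg ‖S0 v‖, hpos v,
        sq_nonneg ‖(1 - q1) v‖]) hXq
    have bq1 := norm_mul_proj_le (S := 1 - q1) hq (fun v => by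
      rw [hquad]; linarith [sq_nonneg ‖S1 v‖, sq_nonneg ‖S0 v‖, hpos v,
        sq_nonneg ‖(1 - q0) v‖]) hXq
    rw [hsq] at b1 b0 be bq0 bq1
    have hc1 := norm_corner_le hes hq1 hq b1 be bq1 hZ1n
    have hc0 := norm_corner_le hes hq0 hq b0 be bq0 hDn
    exact ⟨hc1, hc0⟩

end Vale.Agent.P078.AllMasa.Singular
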