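import Vale.Agent.P078.AllMasa.Singular.Criterion
import Vale.Agent.P078.Tracial.SemifiniteSingular

/-! Averages of pinchings, blockwise choices with a cost, and block estimates. -/

namespace Vale.Agent.P078.AllMasa.Singular

open scoped InnerProductSpace ComplexOrder
open Filter Topology Vale.Agent.P078 Vale.Agent.P078.InM Vale.Agent.P078.Tracial

/-- Mazur: a weak limit is a norm limit of averages. -/
lemma exists_convex_approx {V : Type*} [NormedAddCommGroup V] [InnerProductSpace ℂ V]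
    [CompleteSpace V] {ι : Type*} {U : Filter ι} [U.NeBot] (g : ι → V) (e : V)
    (h : ∀ d, Tendsto (fun i => ⟪d, g i⟫_ℂ) U (𝓝 ⟪d, e⟫_ℂ)) {S : Set ι} (hS : S ∈ U) {η : ℝ}
    (hη : 0 < η) :
    ∃ (n : ℕ) (lam : Fin n → ℝ) (Q : Fin n → ι), (∀ k, 0 ≤ lam k) ∧ ∑ k, lam k = 1 ∧
      (∀ k, Q k ∈ S) ∧ ‖∑ k, lam k • g (Q k) - e‖ < η := by
  classical
  let _ : InnerProductSpace ℝ V := InnerProductSpace.rclikeToReal ℂ _
  set K := closure (convexHull ℝ (g '' S)) with hK
  obtain ⟨i₀, hi₀⟩ := nonempty_of_mem hS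
  have hne : K.Nonempty := ⟨g i₀, subset_closure (subset_convexHull ℝ _ ⟨i₀, hi₀, rfl⟩)⟩
  have hKc : Convex ℝ K := (convex_convexHull ℝ _).closure
  obtain ⟨v, hvK, hv'⟩ :=
    exists_norm_eq_iInf_of_complete_convex hne isClosed_closure.isComplete hKc e
  have hmin := (norm_eq_iInf_iff_real_inner_le_zero hKc hvK).1 hv'
  set d := e - v with hd
  have hle : RCLike.re ⟪d, e - v⟫_ℂ ≤ 0 := by
    have h1 : Tendsto (fun i => RCLike.re ⟪d, g i - v⟫_ℂ) U (𝓝 (RCLike.re ⟪d, e - v⟫_ℂ)) := by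
      simp only [inner_sub_right]
      exact (RCLike.continuous_re.tendsto _).comp ((h d).sub tendsto_const_nhds)
    refine le_of_tendsto h1 (mem_of_superset hS fun i hi => ?_)
    exact hmin (g i) (subset_closure (subset_convexHull ℝ _ ⟨i, hi, rfl⟩))
  rw [← hd, inner_self_eq_norm_sq] at hle
  have hve : e = v := by
    have : ‖d‖ = 0 := pow_eq_zero_iff two_ne_zero |>.1 (le_antisymm hle (sq_nonneg _))
    rwa [norm_eq_zero, hd, sub_eq_zero] at this
  obtain ⟨u, huC, hu⟩ := Metric.mem_closure_iff.1 hvK η hη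
  obtain ⟨ι', _, w, z, hw0, hw1, hz, hsum⟩ := mem_convexHull_iff_exists_fintype.1 huC
  choose R hR hRz using hz
  let f := (Fintype.equivFin ι').symm
  refine ⟨_, fun k => w (f k), fun k => R (f k), fun k => hw0 _, ?_, fun k => hR _, ?_⟩
  · rw [Equiv.sum_comp f w]; exact hw1
  · have : ∑ k, w (f k) • g (R (f k)) = u := by
      rw [Equiv.sum_comp f fun i => w i • g (R i)]
      simp only [hRz, hsum]
    show ‖∑ k, w (f k) • g (R (f k)) - e‖ < η
    rw [this, hve, ← dist_eq_norm, dist_comm]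
    exact hu

/-- One level can be chosen in each block so that the total is close to the average and the cost
stays bounded. -/
lemma exists_choice_cost {V : Type*} [NormedAddCommGroup V] [InnerProductSpace ℂ V]
    {β κ : Type*} [Fintype κ] (lam : κ → ℝ) (h0 : ∀ k, 0 ≤ lam k) (h1 : ∑ k, lam k = 1)
    (t : Finset β) (v : β → κ → V) (a : β → κ → ℝ) :
    ∃ k : β → κ, ‖∑ b ∈ t, v b (k b) - ∑ j, lam j • ∑ b ∈ t, v b j‖ ^ 2 + ∑ b ∈ t, a b (k b) ≤
      ∑ b ∈ t, ∑ j, lam j * (‖v b j‖ ^ 2 + a b j) := by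
  classical
  have hne : Nonempty κ := by
    by_contra hh
    have := not_nonempty_iff.1 hh
    simp at h1
  induction t using Finset.induction with
  | empty => exact ⟨fun _ => Classical.arbitrary κ, by simp⟩
  | insert b t hb ih =>
    obtain ⟨k, hk⟩ := ih
    set S := ∑ b ∈ t, v b (k b) - ∑ j, lam j • ∑ b ∈ t, v b j with hS
    set m := ∑ j, lam j • v b j with hm
    have key : ∑ j, lam j * (‖S + (v b j - m)‖ ^ 2 + a b j) ≤
        ‖S‖ ^ 2 + ∑ j, lam j * (‖v b j‖ ^ 2 + a b j) := by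
      have e1 : ∀ j, ‖S + (v b j - m)‖ ^ 2 = ‖S‖ ^ 2 + ‖v b j‖ ^ 2 + ‖m‖ ^ 2
          + 2 * RCLike.re ⟪S, v b j⟫_ℂ - 2 * RCLike.re ⟪S, m⟫_ℂ
          - 2 * RCLike.re ⟪m, v b j⟫_ℂ := fun j => by
        rw [norm_add_sq (𝕜 := ℂ) S, norm_sub_sq (𝕜 := ℂ) (v b j) m, inner_sub_right, map_sub,
          inner_re_symm (v b j) m]
        ring
      have e2 : ∀ u : V, ∑ j, lam j * RCLike.re ⟪u, v b j⟫_ℂ = RCLike.re ⟪u, m⟫_ℂ := fun u => by
        rw [hm, inner_sum, map_sum]
        refine Finset.sum_congr rfl fun j _ => ?_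
        rw [← Complex.coe_smul, inner_smul_right]
        simp
      have e3 : RCLike.re ⟪m, m⟫_ℂ = ‖m‖ ^ 2 := inner_self_eq_norm_sq (𝕜 := ℂ) m
      calc ∑ j, lam j * (‖S + (v b j - m)‖ ^ 2 + a b j)
          = ‖S‖ ^ 2 * ∑ j, lam j + ∑ j, lam j * (‖v b j‖ ^ 2 + a b j) + ‖m‖ ^ 2 * ∑ j, lam j
            + 2 * ∑ j, lam j * RCLike.re ⟪S, v b j⟫_ℂ - 2 * RCLike.re ⟪S, m⟫_ℂ * ∑ j, lam j
            - 2 * ∑ j, lam j * RCLike.re ⟪m, v b j⟫_ℂ := by
            simp only [e1, Finset.mul_sum, ← Finset.sum_add_distrib, ← Finset.sum_sub_distrib]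
            exact Finset.sum_congr rfl fun j _ => by ring
        _ ≤ _ := by
            rw [h1, e2, e2, e3]
            linarith [sq_nonneg ‖m‖]
    obtain ⟨j0, hj0⟩ : ∃ j0, ‖S + (v b j0 - m)‖ ^ 2 + a b j0 ≤
        ‖S‖ ^ 2 + ∑ j, lam j * (‖v b j‖ ^ 2 + a b j) := by
      by_contra hh
      push Not at hh
      have hlt : ∑ j, lam j * (‖S‖ ^ 2 + ∑ i, lam i * (‖v b i‖ ^ 2 + a b i)) <
          ∑ j, lam j * (‖S + (v b j - m)‖ ^ 2 + a b j) := by
        obtain ⟨j, -, hj⟩ : ∃ j ∈ (Finset.univ : Finset κ), lam j ≠ 0 :=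
          Finset.exists_ne_zero_of_sum_ne_zero (by rw [h1]; exact one_ne_zero)
        refine Finset.sum_lt_sum (fun i _ => mul_le_mul_of_nonneg_left (hh i).le (h0 i))
          ⟨j, Finset.mem_univ j, mul_lt_mul_of_pos_left (hh j) (lt_of_le_of_ne (h0 j) (Ne.symm hj))⟩
      rw [← Finset.sum_mul, h1, one_mul] at hlt
      linarith
    refine ⟨Function.update k b j0, ?_⟩
    have e4 : ∀ c ∈ t, Function.update k b j0 c = k c := fun c hc =>
      Function.update_of_ne (fun h : c = b => hb (h ▸ hc)) _ _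
    rw [Finset.sum_insert hb, Finset.sum_insert hb, Finset.sum_insert hb, Function.update_self,
      Finset.sum_congr rfl fun c hc => congrArg (v c) (e4 c hc),
      Finset.sum_congr rfl fun c hc => congrArg (a c) (e4 c hc)]
    have e5 : ∑ j, lam j • ∑ c ∈ insert b t, v c j = m + ∑ j, lam j • ∑ c ∈ t, v c j := by
      simp only [Finset.sum_insert hb, smul_add, Finset.sum_add_distrib, hm]
    rw [e5]
    have e6 : v b j0 + ∑ c ∈ t, v c (k c) - (m + ∑ j, lam j • ∑ c ∈ t, v c j) =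
        S + (v b j0 - m) := by rw [hS]; abel
    rw [e6]
    linarith

variable {H : Type*} [NormedAddCommGroup H] [InnerProductSpace ℂ H] [CompleteSpace H]
variable {M : VonNeumannAlgebra H} {A : StarSubalgebra ℂ (H →L[ℂ] H)}

/-- The blocks of a coarse partition put a fine pinching together again. -/
lemma sum_blocks_refines (hA : MasaIn M A) {P Q : Ptn A} (h : Refines Q P) (z : H →L[ℂ] H) :
    ∑ b, P.c b * pinch Q.c z * P.c b = pinch Q.c z := by
  have hcc : ∀ b, P.c b * pinch Q.c z * P.c b = pinch Q.c z * P.c b := fun b => by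
    rw [pinch, Finset.mul_sum, Finset.sum_mul, Finset.sum_mul]
    refine Finset.sum_congr rfl fun i _ => ?_
    rw [← mul_assoc, ← mul_assoc]
    rcases h i b with h' | h'
    · rw [h']
    · rw [h', zero_mul, zero_mul, zero_mul, mul_assoc _ (Q.c i),
        hA.comm _ (Q.isPart.mem i) _ (P.isPart.mem b), h', mul_zero]
  rw [Finset.sum_congr rfl fun b _ => hcc b, ← Finset.mul_sum, P.isPart.sum_eq, mul_one]

/-- The pinching by the colours against the pinching by the cells. -/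
lemma colour_identity (R : Ptn A) {r : ℕ} (f : Fin R.n → Fin r) (y E : H →L[ℂ] H) :
    pinch (fun i => ∑ j ∈ Finset.univ.filter (fun j => f j = i), R.c j) y
        - (1 - (r : ℂ)⁻¹) • E - (r : ℂ)⁻¹ • y =
      ∑ p : Fin R.n × Fin R.n, (gap r p f : ℂ) • (R.c p.1 * y * R.c p.2) +
        (1 - (r : ℂ)⁻¹) • (pinch R.c y - E) := by
  classical
  have ey : y = ∑ p : Fin R.n × Fin R.n, R.c p.1 * y * R.c p.2 := by
    rw [Fintype.sum_prod_type]
    simp only [← Finset.mul_sum, R.isPart.sum_eq, mul_one, ← Finset.sum_mul, one_mul]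
  have eP : pinch R.c y =
      ∑ p : Fin R.n × Fin R.n, if p.1 = p.2 then R.c p.1 * y * R.c p.2 else 0 := by
    rw [pinch, Fintype.sum_prod_type]; simp
  have eS : pinch (fun i => ∑ j ∈ Finset.univ.filter (fun j => f j = i), R.c j) y =
      ∑ p : Fin R.n × Fin R.n, if f p.1 = f p.2 then R.c p.1 * y * R.c p.2 else 0 := by
    simp only [pinch, Finset.sum_mul, Finset.mul_sum, Finset.sum_filter]
    rw [Fintype.sum_prod_type_right, Finset.sum_comm]
    refine Finset.sum_congr rfl fun i _ => ?_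
    rw [Finset.sum_comm]
    refine Finset.sum_congr rfl fun j _ => ?_
    rw [Finset.sum_eq_single (f i)]
    · by_cases h : f i = f j
      · simp [h]
      · simp [Ne.symm h]
    · intro b _ hb; simp [Ne.symm hb]
    · simp
  rw [smul_sub, eS]
  nth_rewrite 2 [ey]
  rw [eP, Finset.smul_sum, Finset.smul_sum, sub_right_comm, ← Finset.sum_sub_distrib,
    add_sub, ← Finset.sum_add_distrib]
  congr 1
  refine Finset.sum_congr rfl fun p _ => ?_
  by_cases h : p.1 = p.2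
  · simp [gap, h]; module
  · by_cases h' : f p.1 = f p.2
    · simp [gap, h, h']; module
    · simp [gap, h, h']

lemma le_one_of_le_proj {a w : H →L[ℂ] H} (hw : IsStarProjection w) (h : a ≤ w) : a ≤ 1 :=
  h.trans (sub_nonneg.1 hw.one_sub.nonneg)

lemma norm_apply_sq_le {a : H →L[ℂ] H} (ha : 0 ≤ a) (v : H) :
    ‖a v‖ ^ 2 ≤ ‖a‖ * (⟪v, a v⟫_ℂ).re := by
  obtain ⟨s, hss, hsa, -⟩ := exists_sqrt_comm a ha
  have hn : ‖s‖ ^ 2 = ‖a‖ := by
    rw [← hss, sq, ← CStarRing.norm_star_mul_self, hsa.star_eq]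
  have e : (⟪v, a v⟫_ℂ).re = ‖s v‖ ^ 2 := by
    rw [← hss, op_mul_apply, ← sa_inner hsa, inner_self_eq_norm_sq_to_K]
    simp [← Complex.ofReal_pow]
  rw [e, ← hn, ← mul_pow, ← hss, op_mul_apply]
  exact pow_le_pow_left₀ (norm_nonneg _) (s.le_opNorm _) 2

lemma norm_apply_sq_le' {a : H →L[ℂ] H} (ha : 0 ≤ a) (ha1 : a ≤ 1) (v : H) :
    ‖a v‖ ^ 2 ≤ (⟪v, a v⟫_ℂ).re :=
  (norm_apply_sq_le ha v).trans (mul_le_of_le_one_left
    (Complex.nonneg_iff.1 (inner_nonneg_of_nonneg ha v)).1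
    ((CStarAlgebra.norm_le_one_iff_of_nonneg a ha).2 ha1))

lemma pinch_nonneg' {ι : Type*} [Fintype ι] {c : ι → (H →L[ℂ] H)} (hc : IsPart A 1 c)
    {e : H →L[ℂ] H} (he : 0 ≤ e) : 0 ≤ pinch c e := by
  refine le_of_re_inner (IsSelfAdjoint.zero _) (pinch_selfAdjoint hc he.isSelfAdjoint) fun v => ?_
  rw [_root_.zero_apply, inner_zero_right, Complex.zero_re, inner_pinch hc, Complex.re_sum]
  exact Finset.sum_nonneg fun i _ => (Complex.nonneg_iff.1 (inner_nonneg_of_nonneg he _)).1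

lemma pinch_le_one {ι : Type*} [Fintype ι] {c : ι → (H →L[ℂ] H)} (hc : IsPart A 1 c)
    {e : H →L[ℂ] H} (he : 0 ≤ e) (he1 : e ≤ 1) : pinch c e ≤ 1 :=
  (CStarAlgebra.norm_le_one_iff_of_nonneg _ (pinch_nonneg' hc he)).1
    ((norm_pinch_le hc e).trans ((CStarAlgebra.norm_le_one_iff_of_nonneg e he).2 he1))

lemma commute_pinch {ι : Type*} [Fintype ι] {c : ι → (H →L[ℂ] H)} {b z : H →L[ℂ] H}
    (hb : ∀ i, Commute b (c i)) (hz : Commute b z) : Commute b (pinch c z) :=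
  Commute.sum_right _ _ _ fun i _ => ((hb i).mul_right hz).mul_right (hb i)

lemma pinch_mul_cell {ι : Type*} [Fintype ι] {c : ι → (H →L[ℂ] H)} (hc : IsPart A 1 c)
    (e : H →L[ℂ] H) (i : ι) :
    pinch c e * c i = c i * e * c i ∧ c i * pinch c e = c i * e * c i := by
  classical
  constructor
  · rw [pinch, Finset.sum_mul, Finset.sum_eq_single i]
    · rw [mul_assoc _ (c i) (c i), (hc.proj i).isIdempotentElem.eq]
    · intro j _ hj
      rw [mul_assoc _ (c j) (c i), hc.orth j i hj, mul_zero]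
    · simp
  · rw [pinch, Finset.mul_sum, Finset.sum_eq_single i]
    · rw [← mul_assoc, ← mul_assoc, (hc.proj i).isIdempotentElem.eq]
    · intro j _ hj
      rw [← mul_assoc, ← mul_assoc, hc.orth i j (Ne.symm hj), zero_mul, zero_mul]
    · simp

/-- An element with small pinching is small on the blocks cut down by the spectral projection of
the pinching. -/
lemma norm_cut_block_sq_le {ι : Type*} [Fintype ι] {c : ι → (H →L[ℂ] H)} (hc : IsPart A 1 c)
    {e q : H →L[ℂ] H} (he : 0 ≤ e) (he1 : e ≤ 1) (hq : IsStarProjection q) {κ : ℝ}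
    (hG : ‖pinch c e * q‖ ≤ κ) (i : ι) (hqc : c i * q = q * c i) (z : H) :
    ‖(e * q) (c i z)‖ ^ 2 ≤ κ * ‖c i z‖ ^ 2 := by
  set z' := c i z with hz'
  have hcz : c i z' = z' := proj_apply_apply (hc.proj i) z
  have hv : c i (q z') = q z' := by rw [← op_mul_apply, hqc, op_mul_apply, hcz]
  refine (norm_apply_sq_le' he he1 (q z')).trans ?_
  have h1 : ⟪q z', e (q z')⟫_ℂ = ⟪q z', (pinch c e * q) z'⟫_ℂ := by
    have h2 : (pinch c e * c i) (q z') = (c i * e * c i) (q z') := by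
      rw [(pinch_mul_cell hc e i).1]
    simp only [op_mul_apply, hv] at h2
    rw [op_mul_apply, h2, ← sa_inner (hc.proj i).isSelfAdjoint, hv]
  rw [h1]
  calc _ ≤ ‖⟪q z', (pinch c e * q) z'⟫_ℂ‖ := Complex.re_le_norm _
    _ ≤ ‖q z'‖ * ‖(pinch c e * q) z'‖ := norm_inner_le_norm _ _
    _ ≤ ‖z'‖ * (κ * ‖z'‖) := mul_le_mul (proj_norm_apply_le hq _)
        (((pinch c e * q).le_opNorm _).trans (mul_le_mul_of_nonneg_right hG (norm_nonneg _)))
        (norm_nonneg _) (norm_nonneg _)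
    _ = _ := by ring

/-- An operator small below a projection from its square below a positive operator. -/
lemma norm_mul_proj_le {S X q : H →L[ℂ] H} {c : ℝ} (hq : IsStarProjection q)
    (hS : ∀ v, ‖S v‖ ^ 2 ≤ (⟪v, X v⟫_ℂ).re) (hX : ‖X * q‖ ≤ c) : ‖S * q‖ ≤ Real.sqrt c := by
  refine ContinuousLinearMap.opNorm_le_bound _ (Real.sqrt_nonneg c) fun v => ?_
  have hc : 0 ≤ c := (norm_nonneg _).trans hX
  refine (pow_le_pow_iff_left₀ (norm_nonneg _) (by positivity) two_ne_zero).1 ?_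
  rw [mul_pow, Real.sq_sqrt hc]
  refine (hS (q v)).trans ((Complex.re_le_norm _).trans ((norm_inner_le_norm _ _).trans ?_))
  calc ‖q v‖ * ‖X (q v)‖ ≤ ‖v‖ * (c * ‖v‖) := mul_le_mul (proj_norm_apply_le hq _)
        (((X * q).le_opNorm _).trans (mul_le_mul_of_nonneg_right hX (norm_nonneg _)))
        (norm_nonneg _) (norm_nonneg _)
    _ = _ := by ring

/-- A corner is small when it is small after cutting by `e` and `q₁` and the cuts are small. -/
lemma norm_corner_le {e q₁ q Z : H →L[ℂ] H} (he : IsSelfAdjoint e) (hq₁ : IsStarProjection q₁)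
    (hq : IsStarProjection q) {s B : ℝ} (h1 : ‖e * q₁ * Z * q‖ ≤ s) (h2 : ‖(1 - e) * q‖ ≤ s)
    (h3 : ‖(1 - q₁) * q‖ ≤ s) (hB : ‖Z‖ ≤ B) : ‖q * Z * q‖ ≤ s + 3 * (s * B) := by
  have hs : 0 ≤ s := (norm_nonneg _).trans h1
  have h4 : ‖q * (1 - e)‖ ≤ s := by
    rw [← norm_star, star_mul, star_sub, star_one, he.star_eq, hq.isSelfAdjoint.star_eq]
    exact h2
  have h5 : ‖q * e * (1 - q₁)‖ ≤ 2 * s := by
    rw [← norm_star, star_mul, star_mul, hq₁.one_sub.isSelfAdjoint.star_eq, he.star_eq,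
      hq.isSelfAdjoint.star_eq]
    have e' : (1 - q₁) * (e * q) = (1 - q₁) * q - (1 - q₁) * ((1 - e) * q) := by
      rw [← mul_sub, sub_mul 1 e q, one_mul, sub_sub_cancel]
    rw [e']
    refine (norm_sub_le _ _).trans ?_
    have := (norm_mul_le (1 - q₁) ((1 - e) * q)).trans
      ((mul_le_of_le_one_left (norm_nonneg _) hq₁.one_sub.norm_le).trans h2)
    linarith
  have e1 : q * Z * q = q * (e * q₁ * Z * q) + q * e * (1 - q₁) * Z * q + q * (1 - e) * Z * q := by
    simp only [mul_sub, sub_mul, mul_one, mul_assoc]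
    abel
  have t1 : ‖q * (e * q₁ * Z * q)‖ ≤ s :=
    (norm_mul_le _ _).trans ((mul_le_of_le_one_left (norm_nonneg _) hq.norm_le).trans h1)
  have t2 : ∀ {X : H →L[ℂ] H} {b : ℝ}, ‖X‖ ≤ b → ‖X * Z * q‖ ≤ b * B := fun {X b} hX =>
    (norm_mul_le _ _).trans ((mul_le_of_le_one_right (norm_nonneg _) hq.norm_le).trans
      ((norm_mul_le _ _).trans (mul_le_mul hX hB (norm_nonneg _) ((norm_nonneg _).trans hX))))
  rw [e1]
  refine (norm_add_le _ _).trans ((add_le_add ((norm_add_le _ _).trans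
    (add_le_add t1 (t2 h5))) (t2 h4)).trans (le_of_eq ?_))
  ring

end Vale.Agent.P078.AllMasa.Singular
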