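import Vale.Agent.P078.AllMasa.Singular.Order

/-! A vector functional on a corner below a positive functional invariant under the unitaries of
`A` gives a central vector functional: minimise the distance to the corner projection. -/

namespace Vale.Agent.P078.AllMasa.Singular

open scoped InnerProductSpace ComplexOrder
open Filter Topology Vale.Agent.P078 Vale.Agent.P078.InM Vale.Agent.P078.Tracial

variable {H : Type*} [NormedAddCommGroup H] [InnerProductSpace ℂ H] [CompleteSpace H]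
variable {M : VonNeumannAlgebra H} {A : StarSubalgebra ℂ (H →L[ℂ] H)}

/-- The operators of the corner whose conjugate functional is given by vectors. -/
def Dom (M : VonNeumannAlgebra H) (ψ : (H →L[ℂ] H) → ℂ) (w b : H →L[ℂ] H) : Prop :=
  b ∈ M ∧ w * b = b ∧ ∃ η : Vecs H, ∀ x ∈ M, ψ (star b * x * b) = vecFun η x

variable {ψ : (H →L[ℂ] H) → ℂ} {w : H →L[ℂ] H}

omit [CompleteSpace H] in
lemma vecFun_one_re (η : Vecs H) : (vecFun η 1).re = ‖η‖ ^ 2 := by
  rw [vecFun, amp_one, inner_self_eq_norm_sq_to_K]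
  simp [← Complex.ofReal_pow]

lemma Dom.mul_left {b z : H →L[ℂ] H} (hb : Dom M ψ w b) (hz : z ∈ M)
    (hwz : w * (z * b) = z * b) : Dom M ψ w (z * b) := by
  obtain ⟨η, hη⟩ := hb.2.2
  refine ⟨mul_mem hz hb.1, hwz, amp z η, fun x hx => ?_⟩
  have e : star (z * b) * x * (z * b) = star b * (star z * x * z) * b := by
    simp only [star_mul, mul_assoc]
  rw [e, hη _ (mul_mem (star_mul_mem hz hx) hz), vecFun, vecFun, amp_mul, amp_mul,
    ← amp_inner_star]

lemma Dom.smul (hψ : PosFun M ψ) {b : H →L[ℂ] H} (hb : Dom M ψ w b) (c : ℂ) :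
    Dom M ψ w (c • b) := by
  obtain ⟨η, hη⟩ := hb.2.2
  refine ⟨smul_mem_vn c hb.1, by rw [mul_smul_comm, hb.2.1], c • η, fun x hx => ?_⟩
  have e : star (c • b) * x * (c • b) = (starRingEnd ℂ c * c) • (star b * x * b) := by
    rw [star_smul, smul_mul_assoc, smul_mul_assoc, mul_smul_comm, smul_smul]; rfl
  rw [e, hψ.smul _ _ (mul_mem (star_mul_mem hb.1 hx) hb.1), hη x hx, vecFun, vecFun, map_smul,
    inner_smul_left, inner_smul_right, mul_assoc]

lemma Dom.add (hψ : PosFun M ψ) {b b' : H →L[ℂ] H} (hb : Dom M ψ w b) (hb' : Dom M ψ w b') :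
    Dom M ψ w (b + b') := by
  obtain ⟨η, hη⟩ := hb.2.2
  obtain ⟨η', hη'⟩ := hb'.2.2
  have hs := add_mem hb.1 hb'.1
  refine ⟨hs, by rw [mul_add, hb.2.1, hb'.2.1], ?_⟩
  obtain ⟨ζ, hζ⟩ := exists_comb_two η η'
  have hm : ∀ x ∈ M, star (b + b') * x * (b + b') ∈ M := fun x hx =>
    mul_mem (star_mul_mem hs hx) hs
  refine exists_vecFun_of_le (θ := fun x => ψ (star (b + b') * x * (b + b')))
    ⟨fun x hx y hy => ?_, fun c x hx => ?_, fun x hx => ?_⟩ ζ (C := 2) fun x hx => ?_
  · rw [mul_add (star (b + b')) x y, add_mul, hψ.add _ (hm x hx) _ (hm y hy)]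
  · rw [mul_smul_comm, smul_mul_assoc, hψ.smul c _ (hm x hx)]
  · have := hψ.pos _ (mul_mem hx hs)
    simpa only [star_mul, mul_assoc] using this
  · have key : ∀ d ∈ M, ∀ ξ : Vecs H, (∀ z ∈ M, ψ (star d * z * d) = vecFun ξ z) →
        pnorm ψ (x * d) ^ 2 = ‖amp x ξ‖ ^ 2 := fun d hd ξ hξ => by
      rw [hψ.pnorm_sq (mul_mem hx hd)]
      have e : star (x * d) * (x * d) = star d * (star x * x) * d := by
        simp only [star_mul, mul_assoc]
      rw [e, hξ _ (star_mul_mem hx hx), vecFun_star_mul, Complex.ofReal_re]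
    have h1 : (ψ (star (b + b') * (star x * x) * (b + b'))).re =
        pnorm ψ (x * b + x * b') ^ 2 := by
      rw [← mul_add, hψ.pnorm_sq (mul_mem hx hs)]
      simp only [star_mul, mul_assoc]
    rw [h1, hζ, ← key b hb.1 η hη, ← key b' hb'.1 η' hη']
    have h2 := hψ.parallelogram (mul_mem hx hb.1) (mul_mem hx hb'.1)
    linarith [sq_nonneg (pnorm ψ (x * b - x * b'))]

lemma Dom.sub (hψ : PosFun M ψ) {b b' : H →L[ℂ] H} (hb : Dom M ψ w b) (hb' : Dom M ψ w b') :
    Dom M ψ w (b - b') := by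
  rw [sub_eq_add_neg, ← neg_one_smul ℂ b']
  exact hb.add hψ (hb'.smul hψ _)

/-- The unitaries of `A` span `A`: a property preserved by linear combinations holds on `A`. -/
lemma induction_unitary (hA : MasaIn M A) {P : (H →L[ℂ] H) → Prop}
    (hu : ∀ u ∈ A, star u * u = 1 → u * star u = 1 → P u)
    (hadd : ∀ a ∈ A, ∀ b ∈ A, P a → P b → P (a + b))
    (hsmul : ∀ (c : ℂ), ∀ a ∈ A, P a → P (c • a)) {a : H →L[ℂ] H} (ha : a ∈ A) : P a := by
  have small : ∀ g ∈ A, IsSelfAdjoint g → ‖g‖ ≤ 1 → P g := by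
    intro g hg hgs hg1
    set s : H →L[ℂ] H := cfc (fun t : ℝ => Real.sqrt (1 - t ^ 2)) g with hs
    have hsA : s ∈ A := hA.mem (fun b hb => ((hA.comm g hg b hb).cfc_real _).eq.symm)
      fun b hb => ((comm_commutant (hA.le g hg) hb).symm.cfc_real _).eq.symm
    have hss : IsSelfAdjoint s := cfc_predicate (R := ℝ) _ g
    have hgs2 : g * g + s * s = 1 := by
      conv_lhs => enter [1]; rw [← cfc_id' ℝ g]
      rw [hs, ← cfc_mul _ _ g, ← cfc_mul _ _ g, ← cfc_add g _ _, ← cfc_one ℝ g]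
      refine cfc_congr fun t ht => ?_
      have h := (norm_apply_le_norm_cfc (id : ℝ → ℝ) g ht)
      rw [cfc_id ℝ g, id_eq, Real.norm_eq_abs] at h
      have h' : t ^ 2 ≤ 1 := by nlinarith [abs_le.1 (h.trans hg1)]
      show t * t + Real.sqrt (1 - t ^ 2) * Real.sqrt (1 - t ^ 2) = 1
      rw [Real.mul_self_sqrt (by linarith)]
      ring
    have hc : g * s = s * g := (hA.comm g hg s hsA).eq
    set u : H →L[ℂ] H := g + Complex.I • s with hu'
    have huA : u ∈ A := add_mem hg (SMulMemClass.smul_mem _ hsA)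
    have hus : star u = g - Complex.I • s := by
      rw [hu', star_add, star_smul, hgs.star_eq, hss.star_eq, Complex.star_def, Complex.conj_I,
        neg_smul, sub_eq_add_neg]
    have h1 : star u * u = 1 := by
      rw [hus, hu', ← hgs2]
      simp only [sub_mul, mul_add, smul_mul_assoc, mul_smul_comm, hc]
      match_scalars <;> simp
    have h2 : u * star u = 1 := by
      rw [← (hA.comm _ (star_mem (R := H →L[ℂ] H) huA) _ huA).eq, h1]
    have e : g = (1 / 2 : ℂ) • u + (1 / 2 : ℂ) • star u := by rw [hus, hu']; module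
    have huA' : star u ∈ A := star_mem (R := H →L[ℂ] H) huA
    rw [e]
    exact hadd _ (SMulMemClass.smul_mem _ huA) _ (SMulMemClass.smul_mem _ huA')
      (hsmul _ _ huA (hu _ huA h1 h2))
      (hsmul _ _ huA' (hu _ huA' (by rw [star_star, h2]) (by rw [star_star, h1])))
  have sa : ∀ g ∈ A, IsSelfAdjoint g → P g := by
    intro g hg hgs
    set n : ℝ := ‖g‖ + 1 with hn
    have hn0 : 0 < n := by positivity
    have e : g = (n : ℂ) • ((n⁻¹ : ℝ) : ℂ) • g := by
      rw [smul_smul, ← Complex.ofReal_mul, mul_inv_cancel₀ hn0.ne', Complex.ofReal_one, one_smul]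
    rw [e]
    refine hsmul _ _ (SMulMemClass.smul_mem _ hg)
      (small _ (SMulMemClass.smul_mem _ hg) ?_ ?_)
    · rw [IsSelfAdjoint, star_smul, hgs.star_eq, Complex.star_def, Complex.conj_ofReal]
    · rw [norm_smul, Complex.norm_real, Real.norm_eq_abs, abs_of_pos (inv_pos.2 hn0),
        inv_mul_le_one₀ hn0]
      linarith
  have ha' : star a ∈ A := star_mem (R := H →L[ℂ] H) ha
  have hre : (1 / 2 : ℂ) • (a + star a) ∈ A := SMulMemClass.smul_mem _ (add_mem ha ha')
  have him : (Complex.I / 2) • (a - star a) ∈ A := SMulMemClass.smul_mem _ (sub_mem ha ha')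
  have e : a = (1 / 2 : ℂ) • (a + star a) + (-Complex.I) • ((Complex.I / 2) • (a - star a)) := by
    rw [smul_smul, show -Complex.I * (Complex.I / 2) = (1 / 2 : ℂ) by
      rw [neg_mul, mul_div_assoc', Complex.I_mul_I]; norm_num]
    module
  rw [e]
  refine hadd _ hre _ (SMulMemClass.smul_mem _ him) (sa _ hre ?_) (hsmul _ _ him (sa _ him ?_))
  · rw [IsSelfAdjoint, star_smul, star_add, star_star, add_comm]; simp
  · rw [IsSelfAdjoint, star_smul, star_sub, star_star, Complex.star_def]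
    simp only [map_div₀, Complex.conj_I, map_ofNat]
    module

/-- A vector functional on the corner of `w` under an invariant positive functional gives a
nonzero central vector functional supported on `w`. -/
theorem exists_central (hA : MasaIn M A) (hw : w ∈ A) (hwp : IsStarProjection w)
    (hψ : PosFun M ψ)
    (hinv : ∀ u ∈ A, star u * u = 1 → u * star u = 1 → ∀ x ∈ M, ψ (star u * x * u) = ψ x)
    {r : H →L[ℂ] H} (hr : Dom M ψ w r) (hr0 : 0 < (ψ r).re) :
    ∃ ζ : ℕ → H, Summable (fun n => ‖ζ n‖ ^ 2) ∧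
      (∀ a ∈ A, ∀ x ∈ M, ∑' n, ⟪ζ n, (a * x) (ζ n)⟫_ℂ = ∑' n, ⟪ζ n, (x * a) (ζ n)⟫_ℂ) ∧
      (∀ n, w (ζ n) = ζ n) ∧ ∃ n, ζ n ≠ 0 := by
  classical
  have hwM : w ∈ M := hA.le w hw
  have hws : star w = w := hwp.isSelfAdjoint
  have hww : w * w = w := hwp.isIdempotentElem
  set J : Set ℝ := (fun b => pnorm ψ (w - b)) '' {b | Dom M ψ w b} with hJ
  have hne : J.Nonempty := ⟨_, r, hr, rfl⟩
  have hbdd : BddBelow J := ⟨0, by rintro _ ⟨b, -, rfl⟩; exact pnorm_nonneg _ _⟩
  set m := sInf J with hm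
  have hm0 : 0 ≤ m := le_csInf hne (by rintro _ ⟨b, -, rfl⟩; exact pnorm_nonneg _ _)
  have hmle : ∀ b, Dom M ψ w b → m ≤ pnorm ψ (w - b) := fun b hb =>
    csInf_le hbdd ⟨b, hb, rfl⟩
  have hlt : m < pnorm ψ w := by
    set Q := pnorm ψ r ^ 2 with hQ
    set R := (ψ r).re with hR
    set t : ℝ := R / (Q + 1) with ht
    refine (hmle _ (hr.smul hψ (t : ℂ))).trans_lt ?_
    refine (pow_lt_pow_iff_left₀ (pnorm_nonneg _ _) (pnorm_nonneg _ _) two_ne_zero).1 ?_
    have htr := smul_mem_vn (t : ℂ) hr.1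
    have hwr : form ψ w r = ψ r := by rw [form, hws, hr.2.1]
    have hrw : (form ψ r w).re = R := by
      rw [← hψ.conj_form hwM hr.1, hwr, Complex.conj_re]
    have e : pnorm ψ (w - (t : ℂ) • r) ^ 2 = pnorm ψ w ^ 2 - 2 * t * R + t ^ 2 * Q := by
      have e1 := congrArg Complex.re (hψ.form_self (add_mem hwM (smul_mem_vn (-(t : ℂ)) hr.1)))
      rw [hψ.form_add_left hwM (smul_mem_vn _ hr.1) (add_mem hwM (smul_mem_vn _ hr.1)),
        hψ.form_add_right hwM hwM (smul_mem_vn _ hr.1),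
        hψ.form_add_right (smul_mem_vn _ hr.1) hwM (smul_mem_vn _ hr.1),
        hψ.form_self hwM, hψ.form_self (smul_mem_vn _ hr.1),
        hψ.form_smul_left _ hr.1 hwM, hψ.form_smul_right _ hwM hr.1, hψ.pnorm_smul _ hr.1,
        hwr, neg_smul, ← sub_eq_add_neg, mul_pow] at e1
      simp only [Complex.add_re, Complex.mul_re, map_neg, Complex.conj_ofReal, Complex.neg_re,
        Complex.neg_im, Complex.ofReal_re, Complex.ofReal_im, hrw, norm_neg, Complex.norm_real,
        Real.norm_eq_abs, sq_abs] at e1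
      rw [← hR, ← hQ] at e1
      linarith
    rw [e]
    have hQ1 : 0 < Q + 1 := by positivity
    have : t * (Q + 1) = R := div_mul_cancel₀ _ hQ1.ne'
    have htpos : 0 < t := div_pos hr0 hQ1
    have h2 : t * Q < 2 * R := by linarith
    have h3 := mul_lt_mul_of_pos_left h2 htpos
    linarith [sq t, mul_comm t R, mul_assoc t t Q]
  let e : ℕ → ℝ := fun k => (1 / 4 : ℝ) ^ k
  have he : ∀ k, 0 < e k := fun k => by positivity
  have hex : ∀ k, ∃ b, Dom M ψ w b ∧ pnorm ψ (w - b) ^ 2 < m ^ 2 + e k ^ 2 / 4 := fun k => by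
    have hk : m < Real.sqrt (m ^ 2 + e k ^ 2 / 4) := by
      rw [Real.lt_sqrt hm0]; linarith [pow_pos (he k) 2]
    obtain ⟨_, ⟨b, hb, rfl⟩, hb'⟩ := exists_lt_of_csInf_lt hne hk
    exact ⟨b, hb, (Real.lt_sqrt (pnorm_nonneg _ _)).1 hb'⟩
  choose b hb hbe using hex
  have hbM := fun k => (hb k).1
  have hwb := fun k => sub_mem hwM (hbM k)
  have hclose : ∀ c d, Dom M ψ w c → Dom M ψ w d → ∀ s t : ℝ,
      pnorm ψ (w - c) ^ 2 ≤ m ^ 2 + s → pnorm ψ (w - d) ^ 2 ≤ m ^ 2 + t →
      pnorm ψ (c - d) ^ 2 ≤ 2 * s + 2 * t := by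
    intro c d hc hd s t hs ht
    have hsum : m * 2 ≤ pnorm ψ ((w - d) + (w - c)) := by
      have := hmle _ ((hc.add hψ hd).smul hψ (1 / 2))
      have e : (w - d) + (w - c) = (2 : ℂ) • (w - (1 / 2 : ℂ) • (c + d)) := by module
      rw [e, hψ.pnorm_smul _ (sub_mem hwM (smul_mem_vn _ (add_mem hc.1 hd.1))),
        Complex.norm_ofNat]
      linarith
    have hp := hψ.parallelogram (sub_mem hwM hd.1) (sub_mem hwM hc.1)
    rw [sub_sub_sub_cancel_left] at hp
    have h4 := pow_le_pow_left₀ (by positivity) hsum 2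
    linarith
  have hsucc : ∀ j, pnorm ψ (b (j + 1) - b j) ≤ e j := fun j => by
    refine (pow_le_pow_iff_left₀ (pnorm_nonneg _ _) (he j).le two_ne_zero).1 ?_
    refine (hclose _ _ (hb (j + 1)) (hb j) _ _ (hbe (j + 1)).le (hbe j).le).trans ?_
    have : e (j + 1) = e j / 4 := by simp [e, pow_succ]; ring
    rw [this]
    linarith [sq_nonneg (e j), div_pow (e j) (4 : ℝ) 2]
  set B := pnorm ψ w + (m + 1) with hB'
  have hB0 : 0 ≤ B := by linarith [pnorm_nonneg ψ w]
  have hbB : ∀ k, pnorm ψ (b k) ≤ B := fun k => by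
    have h1 : pnorm ψ (w - b k) ≤ m + 1 := by
      refine (pow_le_pow_iff_left₀ (pnorm_nonneg _ _) (by linarith) two_ne_zero).1
        ((hbe k).le.trans ?_)
      have : e k ≤ 1 := pow_le_one₀ (by norm_num) (by norm_num)
      have := pow_le_pow_left₀ (he k).le this 2
      linarith [add_sq m 1]
    have h2 := hψ.pnorm_add_le hwM (smul_mem_vn (-1) (hwb k))
    rw [hψ.pnorm_smul _ (hwb k), neg_one_smul, ← sub_eq_add_neg, sub_sub_cancel, norm_neg,
      norm_one, one_mul] at h2
    linarith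
  let f : (H →L[ℂ] H) → ℕ → ℂ := fun x k => ψ (star (b k) * x * b k)
  have hlim : ∀ x, ∃ l, x ∈ M → Tendsto (f x) atTop (𝓝 l) := by
    intro x
    by_cases hx : x ∈ M
    swap
    · exact ⟨0, fun h => absurd h hx⟩
    have hC : CauchySeq (f x) := by
      refine cauchySeq_of_le_geometric (1 / 4) (‖x‖ * (2 * B)) (by norm_num) fun n => ?_
      rw [dist_eq_norm]
      have h1 := hψ.norm_conj_sub_le (hbM n) (hbM (n + 1)) hx
      have h2 : pnorm ψ (b n - b (n + 1)) ≤ e n := by
        rw [← neg_sub, ← neg_one_smul ℂ, hψ.pnorm_smul _ (sub_mem (hbM _) (hbM _)), norm_neg,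
          norm_one, one_mul]
        exact hsucc n
      refine h1.trans ?_
      calc pnorm ψ (b n - b (n + 1)) * ‖x‖ * (pnorm ψ (b n) + pnorm ψ (b (n + 1)))
          ≤ e n * ‖x‖ * (B + B) := mul_le_mul (mul_le_mul_of_nonneg_right h2 (norm_nonneg _))
            (add_le_add (hbB _) (hbB _)) (add_nonneg (pnorm_nonneg _ _) (pnorm_nonneg _ _))
            (mul_nonneg (he n).le (norm_nonneg _))
        _ = _ := by simp only [e]; ring
    obtain ⟨l, hl⟩ := cauchySeq_tendsto_of_complete hC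
    exact ⟨l, fun _ => hl⟩
  choose Φ hΦ using hlim
  have hmb : ∀ k, ∀ x ∈ M, star (b k) * x * b k ∈ M := fun k x hx =>
    mul_mem (star_mul_mem (hbM k) hx) (hbM k)
  have hsq : ∀ k, ∀ z ∈ M, f (star z * z) k = ((pnorm ψ (z * b k) ^ 2 : ℝ) : ℂ) := fun k z hz => by
    rw [← hψ.form_self (mul_mem hz (hbM k))]
    simp only [f, form, star_mul, mul_assoc]
  have hΦp : PosFun M Φ := by
    refine ⟨fun x hx y hy => ?_, fun c x hx => ?_, fun x hx => ?_⟩
    · refine tendsto_nhds_unique (hΦ _ (add_mem hx hy)) (((hΦ x hx).add (hΦ y hy)).congr fun k => ?_)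
      simp only [f, mul_add, add_mul, hψ.add _ (hmb k x hx) _ (hmb k y hy)]
    · refine tendsto_nhds_unique (hΦ _ (smul_mem_vn c hx)) (((hΦ x hx).const_mul c).congr fun k => ?_)
      simp only [f, mul_smul_comm, smul_mul_assoc, hψ.smul c _ (hmb k x hx)]
    · have h := hΦ _ (star_mul_mem hx hx)
      refine Complex.nonneg_iff.2 ⟨?_, ?_⟩
      · refine ge_of_tendsto ((Complex.continuous_re.tendsto _).comp h) (Eventually.of_forall fun k => ?_)
        rw [Function.comp_apply, hsq k x hx, Complex.ofReal_re]; exact sq_nonneg _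
      · refine tendsto_nhds_unique tendsto_const_nhds (((Complex.continuous_im.tendsto _).comp h).congr fun k => ?_)
        rw [Function.comp_apply, hsq k x hx, Complex.ofReal_im]
  have hΦw : ∀ x ∈ M, Φ x = Φ (w * x * w) := fun x hx => by
    refine tendsto_nhds_unique (hΦ x hx) ((hΦ _ (mul_mem (mul_mem hwM hx) hwM)).congr fun k => ?_)
    have h1 := (hb k).2.1
    have h2 : star (b k) * w = star (b k) := by
      have := congrArg star h1
      rwa [star_mul, hws] at this
    simp only [f, mul_assoc, h1]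
    rw [← mul_assoc, h2]
  have hΦu : ∀ u ∈ A, star u * u = 1 → u * star u = 1 → ∀ x ∈ M,
      Φ (u * x) = Φ (x * u) := by
    intro u hu h1 h2 x hx
    have huM := hA.le u hu
    have hu' : star u ∈ A := star_mem (R := H →L[ℂ] H) hu
    have hwu : w * u = u * w := (hA.comm w hw u hu).eq
    suffices key : ∀ y ∈ M, Φ (star u * y * u) = Φ y by
      have := key (u * x) (mul_mem huM hx)
      rw [← mul_assoc, h1, one_mul] at this
      exact this.symm
    intro y hy
    let c : ℕ → (H →L[ℂ] H) := fun k => u * b k * star u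
    have hc : ∀ k, Dom M ψ w (c k) := fun k => by
      obtain ⟨η, hη⟩ := (hb k).2.2
      refine ⟨mul_mem (mul_mem huM (hbM k)) (star_mem huM), ?_, amp u η, fun z hz => ?_⟩
      · simp only [c, ← mul_assoc, hwu]
        simp only [mul_assoc, (hb k).2.1]
      · have e : star (c k) * z * c k = star (star u) * (star (b k) * (star u * z * u) * b k) * star u := by
          simp only [c, star_mul, star_star, mul_assoc]
        rw [e, hinv _ hu' (by rw [star_star, h2]) (by rw [star_star, h1]) _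
          (hmb k _ (mul_mem (star_mul_mem huM hz) huM)), hη _ (mul_mem (star_mul_mem huM hz) huM),
          vecFun, vecFun, amp_mul, amp_mul, ← amp_inner_star]
    have hcn : ∀ k, pnorm ψ (w - c k) ^ 2 = pnorm ψ (w - b k) ^ 2 := fun k => by
      rw [hψ.pnorm_sq (sub_mem hwM (hc k).1), hψ.pnorm_sq (hwb k)]
      have e : w - c k = u * (w - b k) * star u := by
        simp only [c, mul_sub, sub_mul, ← hwu]
        rw [mul_assoc w, h2, mul_one]
      have e' : star (u * (w - b k) * star u) * (u * (w - b k) * star u) =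
          star (star u) * (star (w - b k) * (w - b k)) * star u := by
        simp only [star_mul, star_star, mul_assoc]
        rw [← mul_assoc (star u) u, h1, one_mul]
      rw [e, e', hinv _ hu' (by rw [star_star, h2]) (by rw [star_star, h1]) _
        (star_mul_mem (hwb k) (hwb k))]
    have hck : ∀ k, pnorm ψ (c k - b k) ≤ e k := fun k => by
      refine (pow_le_pow_iff_left₀ (pnorm_nonneg _ _) (he k).le two_ne_zero).1 ?_
      refine (hclose _ _ (hc k) (hb k) _ _ ((hcn k).trans_le (hbe k).le) (hbe k).le).trans ?_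
      linarith
    have hck' : ∀ k, pnorm ψ (c k) ≤ B + 1 := fun k => by
      have h := hψ.pnorm_add_le (sub_mem (hc k).1 (hbM k)) (hbM k)
      rw [sub_add_cancel] at h
      have : e k ≤ 1 := pow_le_one₀ (by norm_num) (by norm_num)
      linarith [hbB k, hck k]
    have hd : Tendsto (fun k => ψ (star (c k) * y * c k) - f y k) atTop (𝓝 0) := by
      rw [tendsto_zero_iff_norm_tendsto_zero]
      refine squeeze_zero (fun k => norm_nonneg _) (fun k => ?_)
        (g := fun k => e k * (‖y‖ * (B + 1 + B))) ?_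
      · refine (hψ.norm_conj_sub_le (hc k).1 (hbM k) hy).trans ?_
        rw [mul_assoc]
        refine mul_le_mul (hck k) ?_ (mul_nonneg (norm_nonneg _)
          (add_nonneg (pnorm_nonneg _ _) (pnorm_nonneg _ _))) (he k).le
        exact mul_le_mul_of_nonneg_left (add_le_add (hck' k) (hbB k)) (norm_nonneg _)
      · simpa [e] using (tendsto_pow_atTop_nhds_zero_of_lt_one (by norm_num : (0 : ℝ) ≤ 1 / 4)
          (by norm_num)).mul_const (‖y‖ * (B + 1 + B))
    have e2 : ∀ k, ψ (star (c k) * y * c k) = f (star u * y * u) k := fun k => by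
      have e : star (c k) * y * c k = star (star u) * (star (b k) * (star u * y * u) * b k) * star u := by
        simp only [c, star_mul, star_star, mul_assoc]
      rw [e, hinv _ hu' (by rw [star_star, h2]) (by rw [star_star, h1]) _
        (hmb k _ (mul_mem (star_mul_mem huM hy) huM))]
    simp only [e2] at hd
    exact sub_eq_zero.1 (tendsto_nhds_unique
      ((hΦ _ (mul_mem (star_mul_mem huM hy) huM)).sub (hΦ y hy)) hd)
  have hd : ∀ j, Dom M ψ w (b (j + 1) - b j) := fun j => (hb (j + 1)).sub hψ (hb j)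
  choose η hη using fun j => (hd j).2.2
  have hηn : ∀ j, ∀ z ∈ M, ‖amp z (η j)‖ = pnorm ψ (z * (b (j + 1) - b j)) := fun j z hz => by
    refine (pow_left_inj₀ (norm_nonneg _) (pnorm_nonneg _ _) two_ne_zero).1 ?_
    have h := congrArg Complex.re (hη j _ (star_mul_mem hz hz))
    rw [vecFun_star_mul, Complex.ofReal_re] at h
    rw [← h, hψ.pnorm_sq (mul_mem hz (hd j).1)]
    simp only [star_mul, mul_assoc]
  have hη1 : ∀ j, ‖η j‖ ≤ e j := fun j => by
    have := hηn j 1 (one_mem M)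
    rw [amp_one, one_mul] at this
    rw [this]; exact hsucc j
  let p : ℕ → Vecs H := fun j => ((2 ^ j : ℝ) : ℂ) • η j
  have hpn : ∀ j (T : H →L[ℂ] H), ‖amp T (p j)‖ = 2 ^ j * ‖amp T (η j)‖ := fun j T => by
    rw [map_smul, norm_smul, Complex.norm_real, Real.norm_of_nonneg (by positivity)]
  have hgeo : Summable fun j : ℕ => (1 / 4 : ℝ) ^ j :=
    summable_geometric_of_lt_one (by norm_num) (by norm_num)
  have hps : Summable fun j => ‖p j‖ ^ 2 := by
    refine Summable.of_nonneg_of_le (fun j => sq_nonneg _) (fun j => ?_) hgeo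
    have h := hpn j 1
    rw [amp_one, amp_one] at h
    rw [h]
    calc (2 ^ j * ‖η j‖) ^ 2 ≤ (2 ^ j * e j) ^ 2 :=
          pow_le_pow_left₀ (by positivity) (mul_le_mul_of_nonneg_left (hη1 j) (by positivity)) 2
      _ = _ := by simp only [e]; rw [← mul_pow, ← pow_mul, mul_comm j, pow_mul]; norm_num
  obtain ⟨ζ₁, hζ₁⟩ := exists_comb p hps
  obtain ⟨η₀, hη₀⟩ := (hb 0).2.2
  obtain ⟨ζ₂, hζ₂⟩ := exists_comb_two η₀ ζ₁
  have hdom : ∀ x ∈ M, (Φ (star x * x)).re ≤ 6 * ‖amp x ζ₂‖ ^ 2 := by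
    intro x hx
    refine le_of_tendsto ((Complex.continuous_re.tendsto _).comp (hΦ _ (star_mul_mem hx hx)))
      (Eventually.of_forall fun k => ?_)
    rw [Function.comp_apply, hsq k x hx, Complex.ofReal_re, hζ₂, hζ₁]
    have h0 : ‖amp x η₀‖ = pnorm ψ (x * b 0) := by
      refine (pow_left_inj₀ (norm_nonneg _) (pnorm_nonneg _ _) two_ne_zero).1 ?_
      have h := congrArg Complex.re (hη₀ _ (star_mul_mem hx hx))
      rw [vecFun_star_mul, Complex.ofReal_re] at h
      rw [← h, hψ.pnorm_sq (mul_mem hx (hbM 0))]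
      simp only [star_mul, mul_assoc]
    have htel : ∀ n, pnorm ψ (x * b n) ≤
        ‖amp x η₀‖ + ∑ j ∈ Finset.range n, ‖amp x (η j)‖ := by
      intro n
      induction n with
      | zero => simp [h0]
      | succ n ih =>
        have h := hψ.pnorm_add_le (mul_mem hx (hbM n)) (mul_mem hx (sub_mem (hbM (n + 1)) (hbM n)))
        rw [← mul_add, add_sub_cancel, ← hηn n x hx] at h
        rw [Finset.sum_range_succ]
        linarith
    have hcs : (∑ j ∈ Finset.range k, ‖amp x (η j)‖) ^ 2 ≤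
        2 * ∑' j, ‖amp x (p j)‖ ^ 2 := by
      have h := Finset.sum_mul_sq_le_sq_mul_sq (Finset.range k) (fun j => ((2 : ℝ) ^ j)⁻¹)
        fun j => ‖amp x (p j)‖
      have e1 : ∀ j, ((2 : ℝ) ^ j)⁻¹ * ‖amp x (p j)‖ = ‖amp x (η j)‖ := fun j => by
        rw [hpn, ← mul_assoc, inv_mul_cancel₀ (by positivity), one_mul]
      simp only [e1] at h
      refine h.trans (mul_le_mul ?_ ?_ (Finset.sum_nonneg fun j _ => sq_nonneg _) zero_le_two)
      · have e3 : ∀ j, (((2 : ℝ) ^ j)⁻¹) ^ 2 = (1 / 4 : ℝ) ^ j := fun j => by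
          rw [inv_pow, ← pow_mul, mul_comm j, pow_mul, one_div, inv_pow]; norm_num
        simp only [e3]
        refine (hgeo.sum_le_tsum _ fun j _ => by positivity).trans ?_
        rw [tsum_geometric_of_lt_one (by norm_num) (by norm_num)]
        norm_num
      · refine Summable.sum_le_tsum _ (fun j _ => sq_nonneg _) ?_
        refine Summable.of_nonneg_of_le (fun j => sq_nonneg _) (fun j => ?_)
          (hps.mul_left (‖amp x‖ ^ 2))
        rw [← mul_pow]
        exact pow_le_pow_left₀ (norm_nonneg _) ((amp x).le_opNorm _) 2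
    have hT0 : 0 ≤ ∑' j, ‖amp x (p j)‖ ^ 2 := tsum_nonneg fun j => sq_nonneg _
    have h := pow_le_pow_left₀ (pnorm_nonneg _ _) (htel k) 2
    linarith [add_sq_le (a := ‖amp x η₀‖) (b := ∑ j ∈ Finset.range k, ‖amp x (η j)‖),
      sq_nonneg ‖amp x η₀‖]
  obtain ⟨ζ, hζ⟩ := exists_vecFun_of_le hΦp ζ₂ hdom
  have hζw : ∀ x ∈ M, vecFun (amp w ζ) x = Φ x := fun x hx => by
    rw [hΦw x hx, hζ _ (mul_mem (mul_mem hwM hx) hwM), vecFun, vecFun, amp_mul, amp_mul,
      amp_inner_star, hws]
  have htsum : ∀ T : H →L[ℂ] H,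
      ∑' n, ⟪amp w ζ n, T (amp w ζ n)⟫_ℂ = vecFun (amp w ζ) T := fun T => by
    rw [vecFun, lp.inner_eq_tsum]; rfl
  refine ⟨fun n => amp w ζ n, vecs_summable _, fun a ha x hx => ?_,
    fun n => proj_apply_apply hwp _, ?_⟩
  · rw [htsum, htsum, hζw _ (mul_mem (hA.le a ha) hx), hζw _ (mul_mem hx (hA.le a ha))]
    refine induction_unitary hA (P := fun a => Φ (a * x) = Φ (x * a))
      (fun u hu h1 h2 => hΦu u hu h1 h2 x hx) (fun a ha b hb h h' => ?_) (fun c a ha h => ?_) ha
    · simp only [add_mul, mul_add]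
      rw [hΦp.add _ (mul_mem (hA.le a ha) hx) _ (mul_mem (hA.le b hb) hx),
        hΦp.add _ (mul_mem hx (hA.le a ha)) _ (mul_mem hx (hA.le b hb)), h, h']
    · simp only [smul_mul_assoc, mul_smul_comm]
      rw [hΦp.smul _ _ (mul_mem (hA.le a ha) hx), hΦp.smul _ _ (mul_mem hx (hA.le a ha)), h]
  · by_contra hh
    push Not at hh
    have h0 : Φ (star (1 : H →L[ℂ] H) * 1) = 0 := by
      rw [star_one, one_mul, ← hζw 1 (one_mem M)]
      have : amp w ζ = 0 := lp.ext (funext hh)
      rw [this, vecFun, inner_zero_left]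
    have h1 := (Complex.continuous_re.tendsto _).comp (hΦ _ (star_mul_mem (one_mem M) (one_mem M)))
    rw [h0, Complex.zero_re] at h1
    have h2 : Tendsto (fun k => pnorm ψ (b k)) atTop (𝓝 0) := by
      have := (Real.continuous_sqrt.tendsto 0).comp h1
      rw [Real.sqrt_zero] at this
      refine this.congr fun k => ?_
      simp only [Function.comp_apply]
      rw [hsq k 1 (one_mem M), Complex.ofReal_re, one_mul, Real.sqrt_sq (pnorm_nonneg _ _)]
    have h4 : Tendsto (fun k => m + e k / 2 + pnorm ψ (b k)) atTop (𝓝 m) := by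
      simpa [e] using (tendsto_const_nhds.add ((tendsto_pow_atTop_nhds_zero_of_lt_one
        (by norm_num : (0 : ℝ) ≤ 1 / 4) (by norm_num)).div_const 2)).add h2
    refine absurd hlt (not_lt.2 (ge_of_tendsto h4 (Eventually.of_forall fun k => ?_)))
    have h5 := hψ.pnorm_add_le (hwb k) (hbM k)
    rw [sub_add_cancel] at h5
    have h6 : pnorm ψ (w - b k) ≤ m + e k / 2 := by
      refine (pow_le_pow_iff_left₀ (pnorm_nonneg _ _) (by linarith [he k]) two_ne_zero).1
        ((hbe k).le.trans ?_)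
      linarith [add_sq m (e k / 2), mul_nonneg hm0 (he k).le, div_pow (e k) (2 : ℝ) 2]
    linarith

end Vale.Agent.P078.AllMasa.Singular
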