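import Vale.Agent.P078.Tracial.FromVNAux
import Vale.Agent.P078.InM.Setting
import Vale.Agent.P078.Tracial.SemifiniteSingular

/-! The limit of pinchings along one fixed ultrafilter of refining partitions, for all operators. -/

namespace Vale.Agent.P078.AllMasa.Singular

open scoped InnerProductSpace
open Filter Topology Vale.Agent.P078 Vale.Agent.P078.InM Vale.Agent.P078.Tracial

variable {H : Type*} [NormedAddCommGroup H] [InnerProductSpace ℂ H] [CompleteSpace H]
variable {M : VonNeumannAlgebra H} {A : StarSubalgebra ℂ (H →L[ℂ] H)}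

/-- The filter of fine partitions. -/
def fine (A : StarSubalgebra ℂ (H →L[ℂ] H)) : Filter (Ptn A) := ⨅ P, 𝓟 {R | Refines R P}

lemma fine_neBot (hA : MasaIn M A) : (fine A).NeBot := by
  have hdir : Directed (· ≥ ·) fun P : Ptn A => 𝓟 {R | Refines R P} := by
    intro P P'
    obtain ⟨Q, -, hQ⟩ := InM.exists_refines hA P P'
    exact ⟨Q, principal_mono.2 fun R hR => (hQ R hR).1, principal_mono.2 fun R hR => (hQ R hR).2⟩
  have : Nonempty (Ptn A) := ⟨⟨1, _, isPart_one⟩⟩
  exact iInf_neBot_of_directed hdir fun P => principal_neBot_iff.2 ⟨P, refines_refl P⟩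

/-- An ultrafilter of fine partitions. -/
structure Fine (A : StarSubalgebra ℂ (H →L[ℂ] H)) where
  U : Ultrafilter (Ptn A)
  le : (U : Filter (Ptn A)) ≤ fine A

lemma exists_fine (hA : MasaIn M A) : Nonempty (Fine A) :=
  ⟨⟨@Ultrafilter.of _ (fine A) (fine_neBot hA), @Ultrafilter.of_le _ (fine A) (fine_neBot hA)⟩⟩

lemma Fine.refines (U : Fine A) (P : Ptn A) : ∀ᶠ R in (U.U : Filter (Ptn A)), Refines R P :=
  U.le (mem_iInf_of_mem P (mem_principal_self _))

/-- The limit of the pinchings of `x`. -/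
noncomputable def limE (U : Fine A) (x : H →L[ℂ] H) : H →L[ℂ] H :=
  Classical.choose (exists_weakLimit U.U (fun R : Ptn A => pinch R.c x)
    (fun R => norm_pinch_le R.isPart x))

lemma norm_limE_le (U : Fine A) (x : H →L[ℂ] H) : ‖limE U x‖ ≤ ‖x‖ :=
  (Classical.choose_spec (exists_weakLimit U.U (fun R : Ptn A => pinch R.c x)
    (fun R => norm_pinch_le R.isPart x))).1

lemma tendsto_limE (U : Fine A) (x : H →L[ℂ] H) (u v : H) :
    Tendsto (fun R : Ptn A => ⟪pinch R.c x u, v⟫_ℂ) (U.U : Filter (Ptn A))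
      (𝓝 ⟪limE U x u, v⟫_ℂ) :=
  (Classical.choose_spec (exists_weakLimit U.U (fun R : Ptn A => pinch R.c x)
    (fun R => norm_pinch_le R.isPart x))).2 u v

lemma limE_eq (U : Fine A) {x T : H →L[ℂ] H}
    (h : ∀ u v, Tendsto (fun R : Ptn A => ⟪pinch R.c x u, v⟫_ℂ) (U.U : Filter (Ptn A))
      (𝓝 ⟪T u, v⟫_ℂ)) : limE U x = T := by
  ext u
  refine ext_inner_right ℂ fun v => ?_
  exact tendsto_nhds_unique (tendsto_limE U x u v) (h u v)

lemma limE_add (U : Fine A) (x y : H →L[ℂ] H) : limE U (x + y) = limE U x + limE U y := by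
  refine limE_eq U fun u v => ?_
  rw [_root_.add_apply, inner_add_left]
  refine ((tendsto_limE U x u v).add (tendsto_limE U y u v)).congr fun R => ?_
  rw [← inner_add_left, ← _root_.add_apply]
  simp only [pinch, mul_add, add_mul, Finset.sum_add_distrib]

lemma limE_smul (U : Fine A) (c : ℂ) (x : H →L[ℂ] H) : limE U (c • x) = c • limE U x := by
  refine limE_eq U fun u v => ?_
  rw [_root_.smul_apply, inner_smul_left]
  refine ((tendsto_limE U x u v).const_mul _).congr fun R => ?_
  rw [← inner_smul_left, ← _root_.smul_apply]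
  simp only [pinch, mul_smul_comm, smul_mul_assoc, Finset.smul_sum]

lemma limE_selfAdjoint (U : Fine A) {x : H →L[ℂ] H} (hx : IsSelfAdjoint x) :
    IsSelfAdjoint (limE U x) := by
  refine (ContinuousLinearMap.isSelfAdjoint_iff_isSymmetric).2 fun u v => ?_
  show ⟪limE U x u, v⟫_ℂ = ⟪u, limE U x v⟫_ℂ
  refine tendsto_nhds_unique (tendsto_limE U x u v) ?_
  have hc := (Complex.continuous_conj.tendsto _).comp (tendsto_limE U x v u)
  rw [inner_conj_symm] at hc
  refine hc.congr fun R => ?_
  show starRingEnd ℂ ⟪pinch R.c x v, u⟫_ℂ = _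
  rw [inner_conj_symm, sa_inner (pinch_selfAdjoint R.isPart hx)]

lemma limE_mem (hA : MasaIn M A) (U : Fine A) {x : H →L[ℂ] H} (hx : x ∈ M) :
    limE U x ∈ A := by
  have hM : limE U x ∈ M :=
    vn_mem_of_weakLimit (tendsto_limE U x) fun R => Tracial.pinch_mem hA R.isPart hx
  refine hA.mem (fun g hg => ?_) fun b hb => vn_mem_iff.1 hM b hb
  have key : ∀ g ∈ A, IsSelfAdjoint g → g * limE U x = limE U x * g := by
    intro g hg hgs
    rw [← sub_eq_zero]
    ext u
    refine ext_inner_right ℂ fun v => ?_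
    simp only [_root_.sub_apply, op_mul_apply, _root_.zero_apply, inner_zero_left, inner_sub_left,
      sa_inner hgs]
    rw [← norm_eq_zero]
    refine le_antisymm (le_of_forall_pos_le_add fun a ha => ?_) (norm_nonneg _)
    rw [zero_add]
    set h := a / (2 * ‖x‖ * ‖u‖ * ‖v‖ + 1) with hh'
    have hh : 0 < h := by positivity
    obtain ⟨P, hP⟩ := InM.exists_slices hA hg hgs hh
    refine le_of_tendsto ((tendsto_limE U x u (g v)).sub (tendsto_limE U x (g u) v)).norm ?_
    filter_upwards [U.refines P] with R hR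
    choose t ht using hP R hR
    let S : Fin R.n → (H →L[ℂ] H) := fun i =>
      (g - (t i : ℂ) • 1) * R.c i * x - x * ((g - (t i : ℂ) • 1) * R.c i)
    have hS : ∀ i, ‖S i‖ ≤ 2 * h * ‖x‖ := fun i => by
      refine (norm_sub_le _ _).trans ?_
      calc _ ≤ ‖(g - (t i : ℂ) • 1) * R.c i‖ * ‖x‖ + ‖x‖ * ‖(g - (t i : ℂ) • 1) * R.c i‖ :=
            add_le_add (norm_mul_le _ _) (norm_mul_le _ _)
        _ ≤ h * ‖x‖ + ‖x‖ * h := by gcongr <;> exact ht i
        _ = _ := by ring
    have hkey : g * pinch R.c x - pinch R.c x * g = ∑ i, R.c i * S i * R.c i := by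
      rw [pinch, Finset.mul_sum, Finset.sum_mul, ← Finset.sum_sub_distrib]
      refine Finset.sum_congr rfl fun i _ => ?_
      have c1 : R.c i * g = g * R.c i := (hA.comm _ (R.isPart.mem i) _ hg).eq
      have c2 : R.c i * R.c i = R.c i := (R.isPart.proj i).isIdempotentElem
      simp only [S, sub_mul, mul_sub, smul_mul_assoc, one_mul, mul_smul_comm, mul_assoc, c2]
      simp only [← mul_assoc, c1, c2]
      simp only [mul_assoc, c2, c1]
      abel
    rw [← sa_inner hgs, ← inner_sub_left, ← op_mul_apply, ← op_mul_apply, ← _root_.sub_apply, hkey]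
    calc _ ≤ 2 * h * ‖x‖ * ‖u‖ * ‖v‖ :=
          (norm_inner_le_norm _ _).trans (mul_le_mul_of_nonneg_right
            ((ContinuousLinearMap.le_opNorm _ _).trans (mul_le_mul_of_nonneg_right
              (R.isPart.norm_blockdiag_le S (by positivity) hS) (norm_nonneg _))) (norm_nonneg _))
      _ = a * (2 * ‖x‖ * ‖u‖ * ‖v‖ / (2 * ‖x‖ * ‖u‖ * ‖v‖ + 1)) := by rw [hh']; field_simp
      _ ≤ a * 1 := by
          refine mul_le_mul_of_nonneg_left ((div_le_one (by positivity)).2 (by linarith)) ha.le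
      _ = a := mul_one a
  have hg' : (star g : H →L[ℂ] H) ∈ A := star_mem hg
  have h1 := key ((1 / 2 : ℂ) • (g + star g)) (SMulMemClass.smul_mem _ (add_mem hg hg')) (by
    rw [IsSelfAdjoint, star_smul, star_add, star_star, add_comm]; simp)
  have h2 := key ((Complex.I / 2) • (g - star g)) (SMulMemClass.smul_mem _ (sub_mem hg hg')) (by
    rw [IsSelfAdjoint, star_smul, star_sub, star_star, Complex.star_def]
    simp only [map_div₀, Complex.conj_I, map_ofNat]
    module)
  have e : g = (1 / 2 : ℂ) • (g + star g) + (-Complex.I) • ((Complex.I / 2) • (g - star g)) := by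
    rw [smul_smul, show -Complex.I * (Complex.I / 2) = (1 / 2 : ℂ) by
      rw [neg_mul, mul_div_assoc', Complex.I_mul_I]; norm_num]
    module
  rw [e, add_mul, mul_add, smul_mul_assoc (-Complex.I), mul_smul_comm (-Complex.I), h1, h2]

/-- Elements of `A` pass through pinchings. -/
lemma pinch_mul_mem (hA : MasaIn M A) {ι : Type*} [Fintype ι] {c : ι → (H →L[ℂ] H)}
    (hc : IsPart A 1 c) {a b : H →L[ℂ] H} (ha : a ∈ A) (hb : b ∈ A) (x : H →L[ℂ] H) :
    pinch c (a * x * b) = a * pinch c x * b := by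
  simp only [pinch, Finset.mul_sum, Finset.sum_mul]
  refine Finset.sum_congr rfl fun i _ => ?_
  have e1 : c i * a = a * c i := (hA.comm _ (hc.mem i) _ ha).eq
  have e2 : c i * b = b * c i := (hA.comm _ (hc.mem i) _ hb).eq
  calc c i * (a * x * b) * c i = (c i * a) * x * (b * c i) := by simp only [mul_assoc]
    _ = (a * c i) * x * (c i * b) := by rw [e1, e2]
    _ = a * (c i * x * c i) * b := by simp only [mul_assoc]

lemma limE_mul (hA : MasaIn M A) (U : Fine A) {a b : H →L[ℂ] H} (ha : a ∈ A) (hb : b ∈ A)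
    (x : H →L[ℂ] H) : limE U (a * x * b) = a * limE U x * b := by
  refine limE_eq U fun u v => ?_
  rw [op_mul_apply, op_mul_apply, ← ContinuousLinearMap.adjoint_inner_right]
  refine (tendsto_limE U x (b u) (ContinuousLinearMap.adjoint a v)).congr fun R => ?_
  rw [ContinuousLinearMap.adjoint_inner_right, pinch_mul_mem hA R.isPart ha hb, op_mul_apply,
    op_mul_apply]

end Vale.Agent.P078.AllMasa.Singular
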