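import Vale.Agent.P078.AllMasa.Singular.Central
import Vale.Agent.P078.AllMasa.Singular.Limit

/-! Where no normal central functional lives, some element close to the corner projection has
small pinchings: maximal elements on which the limit of pinchings dominates the vectors. -/

namespace Vale.Agent.P078.AllMasa.Singular

open scoped InnerProductSpace ComplexOrder
open Filter Topology Vale.Agent.P078 Vale.Agent.P078.InM Vale.Agent.P078.Tracial

variable {H : Type*} [NormedAddCommGroup H] [InnerProductSpace ℂ H] [CompleteSpace H]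
variable {M : VonNeumannAlgebra H} {A : StarSubalgebra ℂ (H →L[ℂ] H)}

lemma le_of_re_inner {a b : H →L[ℂ] H} (ha : IsSelfAdjoint a) (hb : IsSelfAdjoint b)
    (h : ∀ v, (⟪v, a v⟫_ℂ).re ≤ (⟪v, b v⟫_ℂ).re) : a ≤ b := by
  rw [← sub_nonneg, ContinuousLinearMap.nonneg_iff_isPositive, ContinuousLinearMap.isPositive_def]
  refine ⟨fun u v => sa_inner (hb.sub ha) u v, fun v => ?_⟩
  show 0 ≤ RCLike.re ⟪(b - a) v, v⟫_ℂ
  rw [inner_re_symm, RCLike.re_to_complex, _root_.sub_apply, inner_sub_right, Complex.sub_re]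
  exact sub_nonneg.2 (h v)

lemma inner_nonneg_of_nonneg {a : H →L[ℂ] H} (ha : 0 ≤ a) (v : H) : 0 ≤ ⟪v, a v⟫_ℂ :=
  ((ContinuousLinearMap.nonneg_iff_isPositive a).1 ha).inner_nonneg_right v

lemma re_inner_mono {a b : H →L[ℂ] H} (hab : a ≤ b) (v : H) :
    (⟪v, a v⟫_ℂ).re ≤ (⟪v, b v⟫_ℂ).re := by
  have := (Complex.nonneg_iff.1 (inner_nonneg_of_nonneg (sub_nonneg.2 hab) v)).1
  rw [_root_.sub_apply, inner_sub_right, Complex.sub_re] at this
  linarith

lemma inner_pinch {ι : Type*} [Fintype ι] {c : ι → (H →L[ℂ] H)} (hc : IsPart A 1 c)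
    (x : H →L[ℂ] H) (u : H) : ⟪u, pinch c x u⟫_ℂ = ∑ i, ⟪c i u, x (c i u)⟫_ℂ := by
  simp only [pinch, _root_.sum_apply, inner_sum, op_mul_apply]
  exact Finset.sum_congr rfl fun i _ => (sa_inner (hc.proj i).isSelfAdjoint _ _).symm

lemma tendsto_limE' (U : Fine A) (x : H →L[ℂ] H) (u v : H) :
    Tendsto (fun R : Ptn A => ⟪u, pinch R.c x v⟫_ℂ) (U.U : Filter (Ptn A))
      (𝓝 ⟪u, limE U x v⟫_ℂ) := by
  simpa [Function.comp_def, inner_conj_symm] using
    (Complex.continuous_conj.tendsto _).comp (tendsto_limE U x v u)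

lemma limE_nonneg (U : Fine A) {x : H →L[ℂ] H} (hx : 0 ≤ x) : 0 ≤ limE U x := by
  refine le_of_re_inner (IsSelfAdjoint.zero _) (limE_selfAdjoint U hx.isSelfAdjoint) fun v => ?_
  rw [_root_.zero_apply, inner_zero_right, Complex.zero_re]
  refine ge_of_tendsto ((Complex.continuous_re.tendsto _).comp (tendsto_limE' U x v v))
    (Eventually.of_forall fun R => ?_)
  rw [Function.comp_apply, inner_pinch R.isPart, Complex.re_sum]
  exact Finset.sum_nonneg fun i _ => (Complex.nonneg_iff.1 (inner_nonneg_of_nonneg hx _)).1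

/-- The vector functional of `F` composed with the limit of pinchings. -/
noncomputable def limFun (U : Fine A) (F : Finset H) (x : H →L[ℂ] H) : ℂ :=
  ∑ u ∈ F, ⟪u, limE U x u⟫_ℂ

lemma limFun_posFun (U : Fine A) (F : Finset H) : PosFun M (limFun U F) where
  add x _ y _ := by
    simp only [limFun, limE_add, _root_.add_apply, inner_add_right, Finset.sum_add_distrib]
  smul c x _ := by
    simp only [limFun, limE_smul, _root_.smul_apply, inner_smul_right, Finset.mul_sum]
  pos x _ := Finset.sum_nonneg fun u _ =>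
    inner_nonneg_of_nonneg (limE_nonneg U (star_mul_self_nonneg x)) u

lemma tendsto_limFun (U : Fine A) (F : Finset H) (x : H →L[ℂ] H) :
    Tendsto (fun R : Ptn A => ∑ u ∈ F, (⟪u, pinch R.c x u⟫_ℂ).re) (U.U : Filter (Ptn A))
      (𝓝 (limFun U F x).re) := by
  rw [limFun, Complex.re_sum]
  exact tendsto_finsetSum _ fun u _ =>
    (Complex.continuous_re.tendsto _).comp (tendsto_limE' U x u u)

omit [CompleteSpace H] in
lemma exists_finite_vecs (F : Finset H) :
    ∃ ζ : Vecs H, ∀ T : H →L[ℂ] H, ‖amp T ζ‖ ^ 2 = ∑ u ∈ F, ‖T u‖ ^ 2 := by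
  classical
  let f : ℕ → H := fun n => if h : n < F.card then (F.equivFin.symm ⟨n, h⟩ : H) else 0
  have hf : Memℓp f 2 := by
    refine memℓp_gen ?_
    simp only [ENNReal.toReal_ofNat, Real.rpow_two]
    refine summable_of_ne_finset_zero (s := Finset.range F.card) fun n hn => ?_
    simp [f, dif_neg (fun h => hn (Finset.mem_range.2 h))]
  refine ⟨⟨f, hf⟩, fun T => ?_⟩
  rw [vecs_norm_sq, tsum_eq_sum (s := Finset.range F.card) fun n hn => ?_]
  · rw [← Fin.sum_univ_eq_sum_range (fun n => ‖amp T ⟨f, hf⟩ n‖ ^ 2), ← Finset.sum_coe_sort F]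
    refine (Fintype.sum_equiv F.equivFin _ _ fun u => ?_).symm
    rw [amp_apply]
    simp [f]
  · rw [amp_apply]
    simp [f, dif_neg (fun h => hn (Finset.mem_range.2 h))]

/-- The candidates of the maximality argument. -/
def Below (M : VonNeumannAlgebra H) (U : Fine A) (F : Finset H) (w : H →L[ℂ] H) (C : ℝ) :
    Set (H →L[ℂ] H) :=
  {g | g ∈ M ∧ 0 ≤ g ∧ g ≤ w ∧ g * w = g ∧ w * g = g ∧
    C * (∑ u ∈ F, (⟪u, g u⟫_ℂ).re) ≤ (limFun U F g).re}

lemma exists_maximal_below (U : Fine A) (F : Finset H) {w : H →L[ℂ] H}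
    (hwp : IsStarProjection w) (C : ℝ) : ∃ g, Maximal (· ∈ Below M U F w C) g := by
  classical
  refine zorn_le₀ _ fun c hc hch => ?_
  rcases c.eq_empty_or_nonempty with rfl | hne
  · exact ⟨0, ⟨zero_mem M, le_rfl, hwp.nonneg, zero_mul _, mul_zero _, by
      simp [(limFun_posFun (M := M) U F).zero]⟩, fun z hz => absurd hz (Set.notMem_empty z)⟩
  have : Nonempty c := hne.to_subtype
  have : IsDirectedOrder c := ⟨fun a b => by
    rcases hch.total a.2 b.2 with h | h
    · exact ⟨b, h, le_rfl⟩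
    · exact ⟨a, le_rfl, h⟩⟩
  let V : Ultrafilter c := Ultrafilter.of atTop
  have hV : (V : Filter c) ≤ atTop := Ultrafilter.of_le _
  have hn : ∀ i : c, ‖(i : H →L[ℂ] H)‖ ≤ 1 := fun i =>
    (CStarAlgebra.norm_le_norm_of_nonneg_of_le (hc i.2).2.1 (hc i.2).2.2.1).trans hwp.norm_le
  obtain ⟨g, -, hg⟩ := exists_weakLimit V (fun i : c => (i : H →L[ℂ] H)) hn
  have hgM : g ∈ M := vn_mem_of_weakLimit hg fun i => (hc i.2).1
  have hgs : IsSelfAdjoint g := by
    refine (ContinuousLinearMap.isSelfAdjoint_iff_isSymmetric).2 fun u v => ?_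
    show ⟪g u, v⟫_ℂ = ⟪u, g v⟫_ℂ
    refine tendsto_nhds_unique (hg u v) ?_
    have h := (Complex.continuous_conj.tendsto _).comp (hg v u)
    rw [inner_conj_symm] at h
    refine h.congr fun i => ?_
    show starRingEnd ℂ ⟪(i : H →L[ℂ] H) v, u⟫_ℂ = _
    rw [inner_conj_symm, sa_inner (hc i.2).2.1.isSelfAdjoint]
  have hre : ∀ v, Tendsto (fun i : c => (⟪v, (i : H →L[ℂ] H) v⟫_ℂ).re) (V : Filter c)
      (𝓝 (⟪v, g v⟫_ℂ).re) := fun v => by
    have h := (Complex.continuous_re.tendsto _).comp (hg v v)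
    simpa [Function.comp_def, ← RCLike.re_to_complex, inner_re_symm] using h
  have hup : ∀ z ∈ c, z ≤ g := fun z hz => by
    refine le_of_re_inner (hc hz).2.1.isSelfAdjoint hgs fun v => ge_of_tendsto (hre v) ?_
    filter_upwards [hV (eventually_ge_atTop (⟨z, hz⟩ : c))] with i hi
    exact re_inner_mono hi v
  have hg0 : 0 ≤ g := by
    obtain ⟨z, hz⟩ := hne
    exact (hc hz).2.1.trans (hup z hz)
  have hgw : g * w = g := by
    ext u
    refine ext_inner_right ℂ fun v => tendsto_nhds_unique (hg (w u) v) ((hg u v).congr fun i => ?_)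
    rw [← op_mul_apply, (hc i.2).2.2.2.1]
  refine ⟨g, ⟨hgM, hg0, le_of_re_inner hgs hwp.isSelfAdjoint fun v =>
    le_of_tendsto (hre v) (Eventually.of_forall fun i => re_inner_mono (hc i.2).2.2.1 v), hgw,
    ?_, ?_⟩, hup⟩
  · have := congrArg star hgw
    rwa [star_mul, hgs.star_eq, hwp.isSelfAdjoint.star_eq] at this
  · refine le_of_tendsto ((tendsto_finsetSum F fun u _ => hre u).const_mul C)
      (Eventually.of_forall fun i => (hc i.2).2.2.2.2.2.trans ?_)
    exact (limFun_posFun (M := M) U F).re_mono (hc i.2).1 hgM (hup _ i.2)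

/-- An element close to `w` on `F` whose pinchings are small on `F`. -/
theorem exists_singular_element (hA : MasaIn M A) {w : H →L[ℂ] H} (hw : w ∈ A)
    (hwp : IsStarProjection w)
    (hsing : ∀ ξ : ℕ → H, (Summable fun n => ‖ξ n‖ ^ 2) →
      (∀ a ∈ A, ∀ x ∈ M, ∑' n, ⟪ξ n, (a * x) (ξ n)⟫_ℂ = ∑' n, ⟪ξ n, (x * a) (ξ n)⟫_ℂ) →
      ∀ n, w (ξ n) = 0)
    (U : Fine A) (F : Finset H) {η : ℝ} (hη : 0 < η) :
    ∃ e, e ∈ M ∧ 0 ≤ e ∧ e ≤ w ∧ e * w = e ∧ w * e = e ∧
      ∑ u ∈ F, (⟪u, (w - e) u⟫_ℂ).re ≤ η ∧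
      ∀ η' > 0, ∀ᶠ R in (U.U : Filter (Ptn A)), ∑ u ∈ F, (⟪u, pinch R.c e u⟫_ℂ).re < η' := by
  have hψ : PosFun M (limFun U F) := limFun_posFun U F
  have hwM := hA.le w hw
  set W := (limFun U F w).re with hW
  have hW0 : 0 ≤ W := hψ.re_nonneg hwM hwp.nonneg
  set C := (W + 1) / η with hC'
  have hC : 0 < C := by positivity
  obtain ⟨g, hg, hmax⟩ := exists_maximal_below (M := M) U F hwp C
  obtain ⟨hgM, hg0, hgle, hgw, hwg, hgC⟩ := hg
  set r := w - g with hr
  have hrM : r ∈ M := sub_mem hwM hgM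
  have hr0 : 0 ≤ r := sub_nonneg.2 hgle
  have hrle : r ≤ w := sub_le_self _ hg0
  have hrw : r * w = r := by rw [hr, sub_mul, hwp.isIdempotentElem.eq, hgw]
  have hwr : w * r = r := by rw [hr, mul_sub, hwp.isIdempotentElem.eq, hwg]
  obtain ⟨s, hss, hsa, hsc⟩ := exists_sqrt_comm r hr0
  have hsM : s ∈ M := sqrt_mem_vn hrM hsc
  have hsw : s * w = s := by
    have hc : Commute r (1 - w) :=
      (Commute.one_right r).sub_right (show r * w = w * r by rw [hrw, hwr])
    have h0 : star (s * (1 - w)) * (s * (1 - w)) = 0 := by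
      rw [star_mul, hsa.star_eq, hwp.one_sub.isSelfAdjoint.star_eq, mul_assoc, ← mul_assoc s,
        hss, mul_sub, mul_one, hrw, sub_self, mul_zero]
    rw [CStarRing.star_mul_self_eq_zero_iff, mul_sub, mul_one, sub_eq_zero] at h0
    exact h0.symm
  have hws : w * s = s := by
    have := congrArg star hsw
    rwa [star_mul, hsa.star_eq, hwp.isSelfAdjoint.star_eq] at this
  have hdom : ∀ z ∈ M, (limFun U F (s * (star z * z) * s)).re ≤
      C * ∑ u ∈ F, ‖z (s u)‖ ^ 2 := by
    intro z hz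
    set N := ‖z‖ ^ 2 + 1 with hN'
    have hN : 0 < N := by positivity
    set k := s * (star z * z) * s with hk
    have hkM : k ∈ M := mul_mem (mul_mem hsM (star_mul_mem hz hz)) hsM
    have hk0 : 0 ≤ k := by
      have h := star_mul_self_nonneg (z * s)
      simpa only [hk, star_mul, hsa.star_eq, mul_assoc] using h
    have hkr : k ≤ (N : ℂ) • r := by
      have h1 : star z * z ≤ ((N : ℝ) : ℂ) • 1 := by
        refine CStarAlgebra.star_mul_le_algebraMap_norm_sq.trans ?_
        rw [Algebra.algebraMap_eq_smul_one, Complex.coe_smul]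
        exact smul_le_smul_of_nonneg_right (by linarith) zero_le_one
      have h2 := star_left_conjugate_le_conjugate h1 s
      rw [hsa.star_eq] at h2
      simpa only [hk, mul_smul_comm, mul_one, smul_mul_assoc, hss] using h2
    have hkw : k * w = k := by rw [hk, mul_assoc, hsw]
    have hwk : w * k = k := by rw [hk, ← mul_assoc, ← mul_assoc, hws, mul_assoc s]
    have hC' : (limFun U F k).re ≤ C * ∑ u ∈ F, (⟪u, k u⟫_ℂ).re := by
      by_contra hlt
      push Not at hlt
      set h : H →L[ℂ] H := ((N⁻¹ : ℝ) : ℂ) • k with hh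
      have hh0 : 0 ≤ h := by
        rw [hh, Complex.coe_smul]
        exact smul_nonneg (inv_nonneg.2 hN.le) hk0
      have hhr : h ≤ r := by
        have h3 := smul_le_smul_of_nonneg_left hkr (inv_nonneg.2 hN.le)
        rwa [← Complex.coe_smul, ← Complex.coe_smul N⁻¹, smul_smul, ← Complex.ofReal_mul,
          inv_mul_cancel₀ hN.ne', Complex.ofReal_one, one_smul] at h3
      have hhM : h ∈ M := smul_mem_vn _ hkM
      have hmem : g + h ∈ Below M U F w C := by
        refine ⟨add_mem hgM hhM, add_nonneg hg0 hh0, ?_, ?_, ?_, ?_⟩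
        · calc g + h ≤ g + r := by gcongr
            _ = w := add_sub_cancel g w
        · rw [add_mul, hgw, hh, smul_mul_assoc, hkw]
        · rw [mul_add, hwg, hh, mul_smul_comm, hwk]
        · rw [hψ.add _ hgM _ hhM, hh, hψ.smul _ _ hkM, Complex.add_re, Complex.re_ofReal_mul]
          simp only [_root_.add_apply, _root_.smul_apply, inner_add_right, inner_smul_right,
            Complex.add_re, Complex.re_ofReal_mul, Finset.sum_add_distrib, ← Finset.mul_sum]
          have h4 := mul_le_mul_of_nonneg_left hlt.le (inv_nonneg.2 hN.le)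
          linarith
      have h5 := hmax hmem (le_add_of_nonneg_right hh0)
      have h6 : h = 0 := le_antisymm (by simpa using h5) hh0
      rw [hh, smul_eq_zero, Complex.ofReal_eq_zero] at h6
      have h7 : k = 0 := h6.resolve_left (inv_ne_zero hN.ne')
      simp [h7, hψ.zero] at hlt
    refine hC'.trans_eq (congrArg (C * ·) (Finset.sum_congr rfl fun u _ => ?_))
    rw [hk, op_mul_apply, op_mul_apply, op_mul_apply, ← sa_inner hsa,
      ContinuousLinearMap.star_eq_adjoint, ContinuousLinearMap.adjoint_inner_right,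
      inner_self_eq_norm_sq_to_K]
    simp [← Complex.ofReal_pow]
  obtain ⟨ζ, hζ⟩ := exists_finite_vecs F
  have hsd : Dom M (limFun U F) w s := by
    refine ⟨hsM, hws, ?_⟩
    have hm : ∀ x ∈ M, star s * x * s ∈ M := fun x hx => mul_mem (star_mul_mem hsM hx) hsM
    refine exists_vecFun_of_le (θ := fun x => limFun U F (star s * x * s))
      ⟨fun x hx y hy => ?_, fun c x hx => ?_, fun x hx => ?_⟩ (amp s ζ) (C := C) fun x hx => ?_
    · rw [mul_add, add_mul, hψ.add _ (hm x hx) _ (hm y hy)]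
    · rw [mul_smul_comm, smul_mul_assoc, hψ.smul c _ (hm x hx)]
    · have h := hψ.pos _ (mul_mem hx hsM)
      simpa only [star_mul, mul_assoc] using h
    · rw [← amp_mul, hζ]
      show (limFun U F (star s * (star x * x) * s)).re ≤ _
      rw [hsa.star_eq]
      exact hdom x hx
  have hzero : (limFun U F r).re = 0 := by
    by_contra hne
    have hrd : Dom M (limFun U F) w r := by
      rw [← hss]
      exact hsd.mul_left hsM (by rw [← mul_assoc, hws])
    have hinv : ∀ u ∈ A, star u * u = 1 → u * star u = 1 → ∀ x ∈ M,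
        limFun U F (star u * x * u) = limFun U F x := by
      intro u hu h1 _ x hx
      have hu' : star u ∈ A := star_mem (R := H →L[ℂ] H) hu
      have : limE U (star u * x * u) = limE U x := by
        rw [limE_mul hA U hu' hu, mul_assoc, (hA.comm _ (limE_mem hA U hx) _ hu).eq, ← mul_assoc,
          h1, one_mul]
      simp only [limFun, this]
    obtain ⟨ξ, hξs, hξc, hξw, n, hn⟩ := exists_central hA hw hwp hψ hinv hrd
      (lt_of_le_of_ne (hψ.re_nonneg hrM hr0) (Ne.symm hne))
    exact hn ((hξw n).symm.trans (hsing ξ hξs hξc n))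
  refine ⟨r, hrM, hr0, hrle, hrw, hwr, ?_, fun η' hη' => ?_⟩
  · rw [hr, sub_sub_cancel]
    have h1 := hψ.re_mono hgM hwM hgle
    have h2 : C * η = W + 1 := div_mul_cancel₀ _ hη.ne'
    refine le_of_mul_le_mul_left ?_ hC
    linarith
  · have h := tendsto_limFun U F r
    rw [hzero] at h
    exact h.eventually (gt_mem_nhds hη')

end Vale.Agent.P078.AllMasa.Singular
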