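import Vale.Agent.P078.AllMasa.Singular.Vector

/-! Order and norm facts for positive functionals on a von Neumann algebra, and countable
combinations of families of vectors. -/

namespace Vale.Agent.P078.AllMasa.Singular

open scoped InnerProductSpace ComplexOrder
open Filter Topology Vale.Agent.P078 Vale.Agent.P078.InM Vale.Agent.P078.Tracial

variable {H : Type*} [NormedAddCommGroup H] [InnerProductSpace ℂ H] [CompleteSpace H]

omit [CompleteSpace H] in
/-- Countably many families of vectors in one family. -/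
lemma exists_comb (η : ℕ → Vecs H) (h : Summable fun j => ‖η j‖ ^ 2) :
    ∃ ζ : Vecs H, ∀ T : H →L[ℂ] H, ‖amp T ζ‖ ^ 2 = ∑' j, ‖amp T (η j)‖ ^ 2 := by
  let g : ℕ × ℕ → H := fun p => η p.1 p.2
  have hg : Summable fun p => ‖g p‖ ^ 2 := by
    refine (summable_prod_of_nonneg fun p => sq_nonneg ‖g p‖).2 ⟨fun j => vecs_summable (η j), ?_⟩
    exact h.congr fun j => vecs_norm_sq (η j)
  let f : ℕ → H := fun n => g (Nat.pairEquiv.symm n)
  have hf : Memℓp f 2 := by
    refine memℓp_gen ?_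
    simp only [ENNReal.toReal_ofNat, Real.rpow_two]
    exact (Nat.pairEquiv.symm.summable_iff (f := fun p => ‖g p‖ ^ 2)).2 hg
  refine ⟨⟨f, hf⟩, fun T => ?_⟩
  have hT : Summable fun p => ‖T (g p)‖ ^ 2 := by
    refine Summable.of_nonneg_of_le (fun p => sq_nonneg _) (fun p => ?_) (hg.mul_left (‖T‖ ^ 2))
    rw [← mul_pow]
    exact pow_le_pow_left₀ (norm_nonneg _) (T.le_opNorm _) 2
  rw [vecs_norm_sq]
  calc ∑' n, ‖T (f n)‖ ^ 2 = ∑' p, ‖T (g p)‖ ^ 2 :=
        Nat.pairEquiv.symm.tsum_eq fun p => ‖T (g p)‖ ^ 2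
    _ = ∑' j, ∑' k, ‖T (g (j, k))‖ ^ 2 :=
        hT.tsum_prod' ((summable_prod_of_nonneg fun p => sq_nonneg _).1 hT).1
    _ = _ := tsum_congr fun j => (vecs_norm_sq (amp T (η j))).symm

/-- Two families of vectors in one family. -/
lemma exists_comb_two (η η' : Vecs H) :
    ∃ ζ : Vecs H, ∀ T : H →L[ℂ] H, ‖amp T ζ‖ ^ 2 = ‖amp T η‖ ^ 2 + ‖amp T η'‖ ^ 2 := by
  let f : ℕ → Vecs H := fun j => if j = 0 then η else if j = 1 then η' else 0
  have hs : Summable fun j => ‖f j‖ ^ 2 :=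
    summable_of_ne_finset_zero (s := {0, 1}) fun j hj => by
      simp only [Finset.mem_insert, Finset.mem_singleton, not_or] at hj
      simp [f, hj.1, hj.2]
  obtain ⟨ζ, hζ⟩ := exists_comb f hs
  refine ⟨ζ, fun T => ?_⟩
  rw [hζ, tsum_eq_sum (s := {0, 1}) fun j hj => ?_]
  · simp [f]
  · simp only [Finset.mem_insert, Finset.mem_singleton, not_or] at hj
    simp [f, hj.1, hj.2]

variable {M : VonNeumannAlgebra H} {θ : (H →L[ℂ] H) → ℂ}

lemma sqrt_mem_vn {R T : H →L[ℂ] H} (hT : T ∈ M) (hR : ∀ X, Commute T X → Commute R X) : R ∈ M :=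
  vn_mem_iff.2 fun b hb => ((hR b (vn_mem_iff.1 hT b hb).symm).eq).symm

namespace PosFun

lemma re_nonneg (h : PosFun M θ) {a : H →L[ℂ] H} (ha : a ∈ M) (hp : 0 ≤ a) :
    0 ≤ (θ a).re := by
  obtain ⟨R, hR, hRs, hRc⟩ := exists_sqrt_comm a hp
  have := (Complex.nonneg_iff.1 (h.pos R (sqrt_mem_vn ha hRc))).1
  rwa [hRs.star_eq, hR] at this

lemma re_mono (h : PosFun M θ) {a b : H →L[ℂ] H} (ha : a ∈ M) (hb : b ∈ M) (hab : a ≤ b) :
    (θ a).re ≤ (θ b).re := by
  have := h.re_nonneg (sub_mem hb ha) (sub_nonneg.2 hab)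
  rw [h.sub hb ha, Complex.sub_re] at this
  linarith

lemma pnorm_sq (h : PosFun M θ) {a : H →L[ℂ] H} (ha : a ∈ M) :
    pnorm θ a ^ 2 = (θ (star a * a)).re :=
  Real.sq_sqrt (Complex.nonneg_iff.1 (h.pos a ha)).1

lemma pnorm_mul_le (h : PosFun M θ) {x b : H →L[ℂ] H} (hx : x ∈ M) (hb : b ∈ M) :
    pnorm θ (x * b) ≤ ‖x‖ * pnorm θ b := by
  refine (pow_le_pow_iff_left₀ (pnorm_nonneg _ _)
    (mul_nonneg (norm_nonneg _) (pnorm_nonneg _ _)) two_ne_zero).1 ?_
  rw [mul_pow, h.pnorm_sq (mul_mem hx hb), h.pnorm_sq hb]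
  have h1 : star x * x ≤ ((‖x‖ ^ 2 : ℝ) : ℂ) • 1 := by
    refine CStarAlgebra.star_mul_le_algebraMap_norm_sq.trans_eq ?_
    rw [Algebra.algebraMap_eq_smul_one, ← Complex.coe_smul]
  have h2 : star (x * b) * (x * b) ≤ ((‖x‖ ^ 2 : ℝ) : ℂ) • (star b * b) := by
    have := star_left_conjugate_le_conjugate h1 b
    simpa only [star_mul, mul_assoc, smul_mul_assoc, one_mul, mul_smul_comm] using this
  refine (h.re_mono (star_mul_mem (mul_mem hx hb) (mul_mem hx hb))
    (smul_mem_vn _ (star_mul_mem hb hb)) h2).trans_eq ?_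
  rw [h.smul _ _ (star_mul_mem hb hb), Complex.re_ofReal_mul]

lemma pnorm_add_le (h : PosFun M θ) {a b : H →L[ℂ] H} (ha : a ∈ M) (hb : b ∈ M) :
    pnorm θ (a + b) ≤ pnorm θ a + pnorm θ b := by
  refine (pow_le_pow_iff_left₀ (pnorm_nonneg _ _)
    (add_nonneg (pnorm_nonneg _ _) (pnorm_nonneg _ _)) two_ne_zero).1 ?_
  have e := congrArg Complex.re (h.form_self (add_mem ha hb))
  rw [h.form_add_left ha hb (add_mem ha hb), h.form_add_right ha ha hb,
    h.form_add_right hb ha hb, h.form_self ha, h.form_self hb] at e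
  simp only [Complex.add_re, Complex.ofReal_re] at e
  have h1 := (Complex.re_le_norm _).trans (h.norm_form_le ha hb)
  have h2 := (Complex.re_le_norm _).trans (h.norm_form_le hb ha)
  linarith [add_sq (pnorm θ a) (pnorm θ b), mul_comm (pnorm θ b) (pnorm θ a)]

lemma parallelogram (h : PosFun M θ) {a b : H →L[ℂ] H} (ha : a ∈ M) (hb : b ∈ M) :
    pnorm θ (a + b) ^ 2 + pnorm θ (a - b) ^ 2 = 2 * pnorm θ a ^ 2 + 2 * pnorm θ b ^ 2 := by
  have hs := add_mem ha hb
  have hd := sub_mem ha hb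
  rw [h.pnorm_sq hs, h.pnorm_sq hd, h.pnorm_sq ha, h.pnorm_sq hb, ← Complex.add_re,
    ← h.add _ (star_mul_mem hs hs) _ (star_mul_mem hd hd)]
  have e : star (a + b) * (a + b) + star (a - b) * (a - b) =
      (2 : ℂ) • (star a * a) + (2 : ℂ) • (star b * b) := by
    simp only [star_add, star_sub, add_mul, mul_add, sub_mul, mul_sub, two_smul]
    abel
  rw [e, h.add _ (smul_mem_vn _ (star_mul_mem ha ha)) _ (smul_mem_vn _ (star_mul_mem hb hb)),
    h.smul _ _ (star_mul_mem ha ha), h.smul _ _ (star_mul_mem hb hb)]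
  simp

lemma pnorm_smul (h : PosFun M θ) (c : ℂ) {a : H →L[ℂ] H} (ha : a ∈ M) :
    pnorm θ (c • a) = ‖c‖ * pnorm θ a := by
  refine (pow_left_inj₀ (pnorm_nonneg _ _)
    (mul_nonneg (norm_nonneg _) (pnorm_nonneg _ _)) two_ne_zero).1 ?_
  rw [mul_pow, h.pnorm_sq (smul_mem_vn c ha), h.pnorm_sq ha, star_smul, smul_mul_assoc,
    mul_smul_comm, smul_smul, h.smul _ _ (star_mul_mem ha ha), Complex.sq_norm]
  rw [Complex.star_def, ← Complex.normSq_eq_conj_mul_self, Complex.re_ofReal_mul]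

/-- The functional moves little when the operator moves little in the seminorm. -/
lemma norm_conj_sub_le (h : PosFun M θ) {a b x : H →L[ℂ] H} (ha : a ∈ M) (hb : b ∈ M)
    (hx : x ∈ M) :
    ‖θ (star a * x * a) - θ (star b * x * b)‖ ≤
      pnorm θ (a - b) * ‖x‖ * (pnorm θ a + pnorm θ b) := by
  have hd := sub_mem ha hb
  have e : θ (star a * x * a) - θ (star b * x * b) =
      form θ (a - b) (x * a) + form θ (star x * b) (a - b) := by
    simp only [form]
    rw [← h.sub (mul_mem (star_mul_mem ha hx) ha) (mul_mem (star_mul_mem hb hx) hb),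
      ← h.add _ (star_mul_mem hd (mul_mem hx ha)) _
        (star_mul_mem (mul_mem (star_mem hx) hb) hd)]
    congr 1
    simp only [star_mul, star_sub, star_star, sub_mul, mul_sub, mul_assoc]
    abel
  rw [e]
  refine (norm_add_le _ _).trans ?_
  have h1 := (h.norm_form_le hd (mul_mem hx ha)).trans
    (mul_le_mul_of_nonneg_left (h.pnorm_mul_le hx ha) (pnorm_nonneg _ _))
  have h2 := (h.norm_form_le (mul_mem (star_mem hx) hb) hd).trans
    (mul_le_mul_of_nonneg_right (h.pnorm_mul_le (star_mem hx) hb) (pnorm_nonneg _ _))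
  rw [norm_star] at h2
  calc _ ≤ pnorm θ (a - b) * (‖x‖ * pnorm θ a) + ‖x‖ * pnorm θ b * pnorm θ (a - b) :=
        add_le_add h1 h2
    _ = _ := by ring

end PosFun

end Vale.Agent.P078.AllMasa.Singular
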