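import Vale.Agent.P078.Tracial.FromVNAux
import Vale.Agent.P078.InM.Setting

/-! Positive functionals on a von Neumann algebra that are dominated by countably many vectors
are given by countably many vectors. -/

namespace Vale.Agent.P078.AllMasa.Singular

open scoped InnerProductSpace ComplexOrder
open Filter Topology Vale.Agent.P078 Vale.Agent.P078.InM Vale.Agent.P078.Tracial

variable {H : Type*} [NormedAddCommGroup H] [InnerProductSpace ℂ H] [CompleteSpace H]

/-- Countably many vectors with summable squared norms. -/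
abbrev Vecs (H : Type*) [NormedAddCommGroup H] := lp (fun _ : ℕ => H) 2

omit [CompleteSpace H] [InnerProductSpace ℂ H] in
lemma vecs_summable (ζ : Vecs H) : Summable fun k => ‖ζ k‖ ^ 2 := by
  have := (lp.memℓp ζ).summable (p := 2) (by norm_num)
  simpa only [ENNReal.toReal_ofNat, Real.rpow_two] using this

omit [CompleteSpace H] [InnerProductSpace ℂ H] in
lemma vecs_norm_sq (ζ : Vecs H) : ‖ζ‖ ^ 2 = ∑' k, ‖ζ k‖ ^ 2 := by
  have := lp.norm_rpow_eq_tsum (p := 2) (by norm_num) ζ
  simpa using this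

omit [CompleteSpace H] in
lemma amp_memℓp (T : H →L[ℂ] H) (ζ : Vecs H) : Memℓp (fun k => T (ζ k)) 2 := by
  refine memℓp_gen ?_
  simp only [ENNReal.toReal_ofNat, Real.rpow_two]
  refine Summable.of_nonneg_of_le (fun k => sq_nonneg _) (fun k => ?_)
    ((vecs_summable ζ).mul_left (‖T‖ ^ 2))
  rw [← mul_pow]
  exact pow_le_pow_left₀ (norm_nonneg _) (T.le_opNorm _) 2

/-- Pointwise action of an operator on families of vectors. -/
noncomputable def amp (T : H →L[ℂ] H) : Vecs H →L[ℂ] Vecs H :=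
  LinearMap.mkContinuous
    { toFun := fun ζ => ⟨fun k => T (ζ k), amp_memℓp T ζ⟩
      map_add' := fun ζ η => by apply lp.ext; funext k; simp; rfl
      map_smul' := fun c ζ => by apply lp.ext; funext k; simp }
    ‖T‖ fun ζ => by
      refine (pow_le_pow_iff_left₀ (norm_nonneg _) (by positivity) two_ne_zero).1 ?_
      rw [mul_pow, vecs_norm_sq ζ, ← tsum_mul_left, vecs_norm_sq]
      refine Summable.tsum_le_tsum (fun k => ?_) (vecs_summable _) ((vecs_summable ζ).mul_left _)
      rw [← mul_pow]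
      exact pow_le_pow_left₀ (norm_nonneg _) (T.le_opNorm _) 2

omit [CompleteSpace H] in
@[simp] lemma amp_apply (T : H →L[ℂ] H) (ζ : Vecs H) (k : ℕ) : amp T ζ k = T (ζ k) := rfl

omit [CompleteSpace H] in
lemma amp_mul (S T : H →L[ℂ] H) (ζ : Vecs H) : amp (S * T) ζ = amp S (amp T ζ) := by
  apply lp.ext; funext k; rfl

omit [CompleteSpace H] in
lemma amp_add (S T : H →L[ℂ] H) (ζ : Vecs H) : amp (S + T) ζ = amp S ζ + amp T ζ := by
  apply lp.ext; funext k; simp

omit [CompleteSpace H] in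
lemma amp_smul (c : ℂ) (T : H →L[ℂ] H) (ζ : Vecs H) : amp (c • T) ζ = c • amp T ζ := by
  apply lp.ext; funext k; simp

omit [CompleteSpace H] in
@[simp] lemma amp_one (ζ : Vecs H) : amp (1 : H →L[ℂ] H) ζ = ζ := by
  apply lp.ext; funext k; rfl

lemma amp_star_inner (T : H →L[ℂ] H) (u v : Vecs H) :
    ⟪amp (star T) u, v⟫_ℂ = ⟪u, amp T v⟫_ℂ := by
  rw [lp.inner_eq_tsum, lp.inner_eq_tsum]
  refine tsum_congr fun k => ?_
  rw [amp_apply, amp_apply, ContinuousLinearMap.star_eq_adjoint,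
    ContinuousLinearMap.adjoint_inner_left]

lemma amp_inner_star (T : H →L[ℂ] H) (u v : Vecs H) :
    ⟪amp T u, v⟫_ℂ = ⟪u, amp (star T) v⟫_ℂ := by
  rw [← amp_star_inner (star T), star_star]

/-- A square root commuting with everything that commutes with the operator. -/
lemma exists_sqrt_comm {K : Type*} [NormedAddCommGroup K] [InnerProductSpace ℂ K] [CompleteSpace K]
    (T : K →L[ℂ] K) (hT : 0 ≤ T) :
    ∃ R : K →L[ℂ] K, R * R = T ∧ IsSelfAdjoint R ∧ ∀ X, Commute T X → Commute R X := by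
  refine ⟨CFC.sqrt T, CFC.sqrt_mul_sqrt_self T hT, (CFC.sqrt_nonneg T).isSelfAdjoint,
    fun X hX => ?_⟩
  rw [CFC.sqrt_eq_cfc]
  exact hX.cfc_nnreal _

/-- The functional of a family of vectors. -/
noncomputable def vecFun (ζ : Vecs H) (T : H →L[ℂ] H) : ℂ := ⟪ζ, amp T ζ⟫_ℂ

lemma vecFun_star_mul (ζ : Vecs H) (T : H →L[ℂ] H) :
    vecFun ζ (star T * T) = ((‖amp T ζ‖ ^ 2 : ℝ) : ℂ) := by
  rw [vecFun, amp_mul]
  calc ⟪ζ, amp (star T) (amp T ζ)⟫_ℂ
      = starRingEnd ℂ ⟪amp (star T) (amp T ζ), ζ⟫_ℂ := (inner_conj_symm _ _).symm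
    _ = starRingEnd ℂ ⟪amp T ζ, amp T ζ⟫_ℂ := by rw [amp_star_inner]
    _ = _ := by rw [inner_self_eq_norm_sq_to_K]; simp

variable {M : VonNeumannAlgebra H}

lemma smul_mem_vn {z : H →L[ℂ] H} (c : ℂ) (hz : z ∈ M) : c • z ∈ M :=
  SMulMemClass.smul_mem (s := M.toStarSubalgebra) c hz

/-- A positive linear functional on the operators of `M`. -/
structure PosFun (M : VonNeumannAlgebra H) (θ : (H →L[ℂ] H) → ℂ) : Prop where
  add : ∀ x ∈ M, ∀ y ∈ M, θ (x + y) = θ x + θ y
  smul : ∀ (c : ℂ), ∀ x ∈ M, θ (c • x) = c * θ x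
  pos : ∀ x ∈ M, 0 ≤ θ (star x * x)

variable {θ : (H →L[ℂ] H) → ℂ}

lemma vecFun_posFun (ζ : Vecs H) : PosFun M (vecFun ζ) where
  add x _ y _ := by rw [vecFun, amp_add, inner_add_right]; rfl
  smul c x _ := by rw [vecFun, amp_smul, inner_smul_right]; rfl
  pos x _ := by rw [vecFun_star_mul]; exact Complex.zero_le_real.2 (sq_nonneg _)

/-- The sesquilinear form of a functional. -/
noncomputable def form (θ : (H →L[ℂ] H) → ℂ) (a b : H →L[ℂ] H) : ℂ := θ (star a * b)

/-- The seminorm of a positive functional. -/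
noncomputable def pnorm (θ : (H →L[ℂ] H) → ℂ) (a : H →L[ℂ] H) : ℝ :=
  Real.sqrt (θ (star a * a)).re

lemma star_mul_mem {a b : H →L[ℂ] H} (ha : a ∈ M) (hb : b ∈ M) :
    star a * b ∈ M := mul_mem (star_mem ha) hb

lemma pnorm_nonneg (θ : (H →L[ℂ] H) → ℂ) (a : H →L[ℂ] H) : 0 ≤ pnorm θ a :=
  Real.sqrt_nonneg _

namespace PosFun

lemma sub (h : PosFun M θ) {x y : H →L[ℂ] H} (hx : x ∈ M) (hy : y ∈ M) :
    θ (x - y) = θ x - θ y := by
  rw [eq_sub_iff_add_eq, ← h.add _ (sub_mem hx hy) _ hy, sub_add_cancel]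

lemma zero (h : PosFun M θ) : θ 0 = 0 := by
  have := h.smul 0 0 (zero_mem M)
  simpa using this

lemma form_add_left (h : PosFun M θ) {a b c : H →L[ℂ] H} (ha : a ∈ M) (hb : b ∈ M) (hc : c ∈ M) :
    form θ (a + b) c = form θ a c + form θ b c := by
  simp only [form]
  rw [star_add, add_mul, h.add _ (star_mul_mem ha hc) _ (star_mul_mem hb hc)]

lemma form_add_right (h : PosFun M θ) {a b c : H →L[ℂ] H} (ha : a ∈ M) (hb : b ∈ M) (hc : c ∈ M) :
    form θ a (b + c) = form θ a b + form θ a c := by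
  simp only [form]
  rw [mul_add, h.add _ (star_mul_mem ha hb) _ (star_mul_mem ha hc)]

lemma form_smul_left (h : PosFun M θ) (c : ℂ) {a b : H →L[ℂ] H} (ha : a ∈ M) (hb : b ∈ M) :
    form θ (c • a) b = starRingEnd ℂ c * form θ a b := by
  simp only [form]
  rw [star_smul, smul_mul_assoc, h.smul _ _ (star_mul_mem ha hb)]; rfl

lemma form_smul_right (h : PosFun M θ) (c : ℂ) {a b : H →L[ℂ] H} (ha : a ∈ M) (hb : b ∈ M) :
    form θ a (c • b) = c * form θ a b := by
  simp only [form]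
  rw [mul_smul_comm, h.smul _ _ (star_mul_mem ha hb)]

lemma form_self (h : PosFun M θ) {a : H →L[ℂ] H} (ha : a ∈ M) :
    form θ a a = ((pnorm θ a ^ 2 : ℝ) : ℂ) := by
  have h0 := Complex.nonneg_iff.1 (h.pos a ha)
  rw [pnorm, Real.sq_sqrt h0.1]
  apply Complex.ext
  · simp [form]
  · simpa [form] using h0.2.symm

lemma conj_form (h : PosFun M θ) {a b : H →L[ℂ] H} (ha : a ∈ M) (hb : b ∈ M) :
    starRingEnd ℂ (form θ a b) = form θ b a := by
  have key : ∀ c : ℂ, (c * form θ a b + starRingEnd ℂ c * form θ b a).im = 0 := fun c => by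
    have hcb := smul_mem_vn c hb
    have hab := add_mem ha hcb
    have e := h.form_self hab
    rw [h.form_add_left ha hcb hab, h.form_add_right ha ha hcb, h.form_add_right hcb ha hcb,
      h.form_smul_left c hb ha, h.form_smul_right c ha hb, h.form_smul_left c hb hcb,
      h.form_smul_right c hb hb, h.form_self ha, h.form_self hb] at e
    have := congrArg Complex.im e
    simp only [Complex.add_im, Complex.mul_im, Complex.mul_re, Complex.ofReal_re,
      Complex.ofReal_im, Complex.conj_re, Complex.conj_im] at this ⊢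
    ring_nf at this ⊢
    linarith
  have h1 := key 1
  have h2 := key Complex.I
  simp [Complex.mul_im, Complex.mul_re] at h1 h2
  apply Complex.ext <;> simp <;> linarith

lemma norm_form_le (h : PosFun M θ) {a b : H →L[ℂ] H} (ha : a ∈ M) (hb : b ∈ M) :
    ‖form θ a b‖ ≤ pnorm θ a * pnorm θ b := by
  have key : ∀ t : ℝ, 0 ≤ pnorm θ b ^ 2 * (‖form θ a b‖ ^ 2) * (t * t) +
      (2 * ‖form θ a b‖ ^ 2) * t + pnorm θ a ^ 2 := fun t => by
    set z := form θ a b with hz
    set c : ℂ := (t : ℂ) * starRingEnd ℂ z with hc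
    have hcb := smul_mem_vn c hb
    have hab := add_mem ha hcb
    have e := h.form_self hab
    rw [h.form_add_left ha hcb hab, h.form_add_right ha ha hcb, h.form_add_right hcb ha hcb,
      h.form_smul_left c hb ha, h.form_smul_right c ha hb, h.form_smul_left c hb hcb,
      h.form_smul_right c hb hb, h.form_self ha, h.form_self hb, ← h.conj_form ha hb, ← hz] at e
    have h1 := congrArg Complex.re e
    have h0 : 0 ≤ pnorm θ (a + c • b) ^ 2 := sq_nonneg _
    rw [Complex.ofReal_re] at h1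
    rw [← h1] at h0
    refine h0.trans (le_of_eq ?_)
    rw [Complex.sq_norm, Complex.normSq_apply]
    simp only [hc, Complex.add_re, Complex.mul_re, Complex.mul_im, Complex.ofReal_re,
      Complex.ofReal_im, Complex.conj_re, Complex.conj_im]
    ring
  have hd := discrim_le_zero key
  rw [discrim] at hd
  refine (pow_le_pow_iff_left₀ (norm_nonneg _)
    (mul_nonneg (pnorm_nonneg θ a) (pnorm_nonneg θ b)) two_ne_zero).1 ?_
  rcases eq_or_ne (form θ a b) 0 with h0 | h0
  · rw [h0, norm_zero, zero_pow two_ne_zero]; exact sq_nonneg _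
  · have hn : 0 < ‖form θ a b‖ ^ 2 := by positivity
    rw [mul_pow]
    refine le_of_mul_le_mul_left ?_ (show 0 < 4 * ‖form θ a b‖ ^ 2 by positivity)
    linarith

end PosFun

/-- A positive functional on `M` dominated by vectors is given by vectors. -/
theorem exists_vecFun_of_le (h : PosFun M θ) (ζ : Vecs H) {C : ℝ}
    (hdom : ∀ x ∈ M, (θ (star x * x)).re ≤ C * ‖amp x ζ‖ ^ 2) :
    ∃ η : Vecs H, ∀ x ∈ M, θ x = vecFun η x := by
  classical
  let SM := Subalgebra.toSubmodule M.toStarSubalgebra.toSubalgebra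
  have hSM : ∀ x : SM, (x : H →L[ℂ] H) ∈ M := fun x => x.2
  have hmk : ∀ z, z ∈ M → z ∈ SM := fun z hz => hz
  let e₀ : SM →ₗ[ℂ] Vecs H :=
    { toFun := fun x => amp (x : H →L[ℂ] H) ζ
      map_add' := fun x y => by simp [amp_add]
      map_smul' := fun c x => by simp [amp_smul] }
  let W : Submodule ℂ (Vecs H) := (LinearMap.range e₀).topologicalClosure
  have : CompleteSpace W := (Submodule.isClosed_topologicalClosure _).completeSpace_coe
  let e : SM →ₗ[ℂ] W :=
    e₀.codRestrict W fun x => Submodule.le_topologicalClosure _ (LinearMap.mem_range_self _ x)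
  have he : ∀ x, (e x : Vecs H) = amp (x : H →L[ℂ] H) ζ := fun x => rfl
  have hdense : DenseRange e := by
    intro w
    rw [mem_closure_iff_seq_limit]
    have hw : (w : Vecs H) ∈ closure (LinearMap.range e₀ : Set (Vecs H)) := by
      have := w.2
      rwa [← SetLike.mem_coe, Submodule.topologicalClosure_coe] at this
    obtain ⟨s, hs, hlim⟩ := mem_closure_iff_seq_limit.1 hw
    choose y hy using fun n => hs n
    refine ⟨fun n => e (y n), fun n => ⟨y n, rfl⟩, tendsto_subtype_rng.2 ?_⟩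
    exact hlim.congr fun n => (hy n).symm
  set C' := max C 0 with hC'
  have hb : ∀ x : SM, pnorm θ x ≤ Real.sqrt C' * ‖e x‖ := fun x => by
    rw [← Real.sqrt_sq (norm_nonneg (e x)), ← Real.sqrt_mul (le_max_right _ _)]
    refine Real.sqrt_le_sqrt ((hdom _ (hSM x)).trans ?_)
    show C * _ ≤ C' * ‖(e x : Vecs H)‖ ^ 2
    rw [he]
    exact mul_le_mul_of_nonneg_right (le_max_left _ _) (sq_nonneg _)
  let f : SM → (SM →ₗ[ℂ] ℂ) := fun b =>
    { toFun := fun a => form θ b a
      map_add' := fun a a' => h.form_add_right (hSM b) (hSM a) (hSM a')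
      map_smul' := fun c a => h.form_smul_right c (hSM b) (hSM a) }
  have hf : ∀ b a, ‖f b a‖ ≤ (C' * ‖e b‖) * ‖e a‖ := fun b a => by
    refine (h.norm_form_le (hSM b) (hSM a)).trans ((mul_le_mul (hb b) (hb a) (pnorm_nonneg θ _)
      (by positivity)).trans (le_of_eq ?_))
    rw [mul_mul_mul_comm, Real.mul_self_sqrt (le_max_right _ _), mul_assoc]
  let t : SM → W := fun b => (InnerProductSpace.toDual ℂ W).symm ((f b).extendOfNorm e)
  have ht : ∀ b a, ⟪t b, e a⟫_ℂ = form θ b a := fun b a => by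
    rw [InnerProductSpace.toDual_symm_apply]
    exact LinearMap.extendOfNorm_eq hdense ⟨_, hf b⟩ a
  have htn : ∀ b, ‖t b‖ ≤ C' * ‖e b‖ := fun b => by
    rw [LinearIsometryEquiv.norm_map]
    exact LinearMap.opNorm_extendOfNorm_le hdense (by positivity) (hf b)
  have hext : ∀ u v : W, (∀ a, ⟪u, e a⟫_ℂ = ⟪v, e a⟫_ℂ) → u = v := fun u v huv =>
    ext_inner_right ℂ fun w =>
      hdense.induction_on w (isClosed_eq (by fun_prop) (by fun_prop)) huv
  let tl : SM →ₗ[ℂ] W :=
    { toFun := t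
      map_add' := fun a b => hext _ _ fun c => by
        rw [inner_add_left, ht, ht, ht]
        exact h.form_add_left (hSM a) (hSM b) (hSM c)
      map_smul' := fun z a => hext _ _ fun c => by
        rw [inner_smul_left, ht, ht, RingHom.id_apply]
        exact h.form_smul_left z (hSM a) (hSM c) }
  let T₀ : W →L[ℂ] W := tl.extendOfNorm e
  have hT₀ : ∀ b, T₀ (e b) = t b := fun b => LinearMap.extendOfNorm_eq hdense ⟨_, htn⟩ b
  let T : Vecs H →L[ℂ] Vecs H := W.subtypeL ∘L T₀ ∘L W.orthogonalProjectionOnto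
  have hT : ∀ v, T v = (T₀ (W.orthogonalProjectionOnto v) : Vecs H) := fun v => rfl
  have hsymm : ∀ u v : W, ⟪T₀ u, v⟫_ℂ = ⟪u, T₀ v⟫_ℂ := fun u v => by
    refine hdense.induction_on u (isClosed_eq (by fun_prop) (by fun_prop)) fun a => ?_
    show ⟪T₀ (e a), v⟫_ℂ = ⟪e a, T₀ v⟫_ℂ
    refine hdense.induction_on v (isClosed_eq (by fun_prop) (by fun_prop)) fun b => ?_
    show ⟪T₀ (e a), e b⟫_ℂ = ⟪e a, T₀ (e b)⟫_ℂ
    rw [hT₀, hT₀, ht, ← inner_conj_symm (e a) (t b), ht, h.conj_form (hSM b) (hSM a)]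
  have hnn : ∀ u : W, 0 ≤ RCLike.re ⟪T₀ u, u⟫_ℂ := fun u => by
    refine hdense.induction_on u (isClosed_le continuous_const (by fun_prop)) fun a => ?_
    rw [hT₀, ht, h.form_self (hSM a)]
    rw [RCLike.re_to_complex, Complex.ofReal_re]
    exact sq_nonneg _
  have hTsymm : ∀ u v, ⟪T u, v⟫_ℂ = ⟪u, T v⟫_ℂ := fun u v => by
    rw [hT, hT]
    calc ⟪(T₀ (W.orthogonalProjectionOnto u) : Vecs H), v⟫_ℂ
        = ⟪T₀ (W.orthogonalProjectionOnto u), W.orthogonalProjectionOnto v⟫_ℂ :=
          (Submodule.inner_orthogonalProjectionOnto_eq_of_mem_left _ _).symm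
      _ = ⟪W.orthogonalProjectionOnto u, T₀ (W.orthogonalProjectionOnto v)⟫_ℂ := hsymm _ _
      _ = _ := Submodule.inner_orthogonalProjectionOnto_eq_of_mem_right _ _
  have hTpos : 0 ≤ T := by
    rw [ContinuousLinearMap.nonneg_iff_isPositive, ContinuousLinearMap.isPositive_def]
    refine ⟨hTsymm, fun v => ?_⟩
    show 0 ≤ RCLike.re ⟪T v, v⟫_ℂ
    rw [hT, ← Submodule.inner_orthogonalProjectionOnto_eq_of_mem_left]
    exact hnn _
  have hinv : ∀ x ∈ M, ∀ v ∈ W, amp x v ∈ W := fun x hx v hv => by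
    have h0 : LinearMap.range e₀ ≤ W.comap (amp x).toLinearMap := by
      rintro _ ⟨a, rfl⟩
      refine Submodule.le_topologicalClosure _ ⟨⟨x * (a : H →L[ℂ] H), hmk _ (mul_mem hx (hSM a))⟩, ?_⟩
      exact amp_mul x _ ζ
    exact Submodule.topologicalClosure_minimal _ h0
      (IsClosed.preimage (amp x).continuous (Submodule.isClosed_topologicalClosure _)) hv
  have hcomm : ∀ x ∈ M, amp x * T = T * amp x := fun x hx => by
    refine ContinuousLinearMap.ext fun v => ?_
    show amp x (T v) = T (amp x v)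
    rw [hT, hT]
    have hp : W.orthogonalProjectionOnto (amp x v) =
        ⟨amp x (W.orthogonalProjectionOnto v : Vecs H), hinv x hx _ (W.orthogonalProjectionOnto v).2⟩ := by
      apply Subtype.ext
      refine Submodule.eq_starProjection_of_mem_of_inner_eq_zero (u := amp x v)
        (hinv x hx _ (W.orthogonalProjectionOnto v).2) fun w hw => ?_
      rw [← map_sub, amp_inner_star]
      exact Submodule.starProjection_inner_eq_zero v _ (hinv _ (star_mem hx) w hw)
    rw [hp]
    generalize W.orthogonalProjectionOnto v = u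
    refine hdense.induction_on u (isClosed_eq (by fun_prop) (by fun_prop)) fun a => ?_
    show amp x (T₀ (e a) : Vecs H) = (T₀ ⟨amp x (e a), hinv x hx _ (e a).2⟩ : Vecs H)
    have hxa : (⟨amp x (e a), hinv x hx _ (e a).2⟩ : W) =
        e ⟨x * (a : H →L[ℂ] H), hmk _ (mul_mem hx (hSM a))⟩ :=
      Subtype.ext (amp_mul x _ ζ).symm
    rw [hxa, hT₀, hT₀]
    refine congrArg Subtype.val (hext ⟨_, hinv x hx _ (t a).2⟩ _ fun b => ?_)
    rw [ht, Submodule.coe_inner]
    show ⟪amp x (t a : Vecs H), (e b : Vecs H)⟫_ℂ = _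
    rw [amp_inner_star]
    have hsb : amp (star x) (e b : Vecs H) = (e ⟨star x * (b : H →L[ℂ] H),
        hmk _ (mul_mem (star_mem hx) (hSM b))⟩ : Vecs H) := (amp_mul _ _ ζ).symm
    rw [hsb, ← Submodule.coe_inner, ht]
    show θ _ = θ _
    simp only [star_mul, star_star, mul_assoc]
  obtain ⟨R, hR, hRsa, hRc⟩ := exists_sqrt_comm T hTpos
  refine ⟨R ζ, fun x hx => ?_⟩
  have hRx : amp x * R = R * amp x := ((hRc _ (hcomm x hx).symm).eq).symm
  rw [vecFun, ← op_mul_apply, hRx, op_mul_apply, sa_inner hRsa, ← op_mul_apply R R, hR, hT]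
  have h1 : W.orthogonalProjectionOnto (amp x ζ) = e ⟨x, hmk _ hx⟩ :=
    Submodule.orthogonalProjectionOnto_mem_subspace_eq_self (e ⟨x, hmk _ hx⟩)
  have h1' : ζ = (e ⟨1, hmk _ (one_mem M)⟩ : Vecs H) := (amp_one ζ).symm
  rw [h1, hT₀]
  conv_rhs => rw [h1', ← Submodule.coe_inner, ← inner_conj_symm, ht,
    h.conj_form (hSM _) (hSM _)]
  simp [form]

end Vale.Agent.P078.AllMasa.Singular
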